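import Mathlib

/-! Hypergraph properties, their probabilities and threshold widths. -/

namespace Vale.Agent.P063

open Finset

/-- All simple `r`-uniform hypergraphs on the vertex set `Fin n`, each given by its edge set. -/
def hypergraphs (n r : ℕ) : Finset (Finset (Finset (Fin n))) :=
  ((univ : Finset (Fin n)).powersetCard r).powerset

/-- A family of `r`-uniform hypergraphs on `Fin n` invariant under all vertex permutations. -/
def IsHypergraphProperty (n r : ℕ) (P : Finset (Finset (Finset (Fin n)))) : Prop :=
  P ⊆ hypergraphs n r ∧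
    ∀ H ∈ P, ∀ σ : Equiv.Perm (Fin n), H.image (fun e => e.image σ) ∈ P

/-- Adding edges preserves membership. -/
def IsIncreasing (n r : ℕ) (P : Finset (Finset (Finset (Fin n)))) : Prop :=
  ∀ H ∈ P, ∀ H' ∈ hypergraphs n r, H ⊆ H' → H' ∈ P

/-- The probability that the random `r`-uniform hypergraph with edge probability `p` is in `P`. -/
noncomputable def edgeProb (n r : ℕ) (p : ℝ) (P : Finset (Finset (Finset (Fin n)))) : ℝ :=
  ∑ H ∈ P, p ^ H.card * (1 - p) ^ (n.choose r - H.card)

/-- The infimum of the edge probabilities at which `P` has probability at least `a`. -/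
noncomputable def quantile (n r : ℕ) (P : Finset (Finset (Finset (Fin n)))) (a : ℝ) : ℝ :=
  sInf {p : ℝ | p ∈ Set.Icc 0 1 ∧ a ≤ edgeProb n r p P}

/-- The threshold width. -/
noncomputable def width (n r : ℕ) (P : Finset (Finset (Finset (Fin n)))) (ε : ℝ) : ℝ :=
  quantile n r P (1 - ε) - quantile n r P ε

end Vale.Agent.P063
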