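import Mathlib

/-! Biased Fourier analysis on a finite discrete cube. -/

set_option linter.unusedSectionVars false

namespace Vale.Agent.P063

open Finset


variable {α : Type*} [Fintype α] [DecidableEq α]

/-- The product weight of a point of the cube. -/
noncomputable def wt (p : ℝ) (x : α → Bool) : ℝ := ∏ e, if x e then p else 1 - p

/-- Expectation under the biased product measure. -/
noncomputable def Ex (p : ℝ) (g : (α → Bool) → ℝ) : ℝ := ∑ x, wt p x * g x

/-- Standard deviation of one bit. -/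
noncomputable def sd (p : ℝ) : ℝ := Real.sqrt (p * (1 - p))

/-- The normalised bit. -/
noncomputable def phi (p : ℝ) (b : Bool) : ℝ := ((if b then 1 else 0) - p) / sd p

/-- The biased Fourier character. -/
noncomputable def chi (p : ℝ) (S : Finset α) (x : α → Bool) : ℝ := ∏ e ∈ S, phi p (x e)

/-- The biased Fourier coefficient. -/
noncomputable def coef (p : ℝ) (f : (α → Bool) → ℝ) (S : Finset α) : ℝ :=
  Ex p fun x => f x * chi p S x

lemma wt_nonneg {p : ℝ} (h0 : 0 ≤ p) (h1 : p ≤ 1) (x : α → Bool) : 0 ≤ wt p x := by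
  refine prod_nonneg fun e _ => ?_
  split_ifs <;> linarith

lemma Ex_prod (p : ℝ) (G : α → Bool → ℝ) :
    Ex p (fun x => ∏ e, G e (x e)) = ∏ e, (p * G e true + (1 - p) * G e false) := by
  have h := Fintype.prod_sum (fun (e : α) (b : Bool) => (if b then p else 1 - p) * G e b)
  simp only [Fintype.sum_bool, if_true, Bool.false_eq_true, if_false] at h
  rw [h]
  unfold Ex wt
  refine sum_congr rfl fun x _ => ?_
  rw [prod_mul_distrib]

lemma Ex_const (p : ℝ) (c : ℝ) : Ex (α := α) p (fun _ => c) = c := by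
  have h := Ex_prod (α := α) p (fun _ _ => (1 : ℝ))
  simp only [prod_const_one, mul_one, add_sub_cancel] at h
  unfold Ex at *
  rw [← sum_mul]
  simp only [mul_one] at h
  rw [h, one_mul]

lemma Ex_add (p : ℝ) (f g : (α → Bool) → ℝ) :
    Ex p (fun x => f x + g x) = Ex p f + Ex p g := by
  simp only [Ex, mul_add, sum_add_distrib]

lemma Ex_sub (p : ℝ) (f g : (α → Bool) → ℝ) :
    Ex p (fun x => f x - g x) = Ex p f - Ex p g := by
  simp only [Ex, mul_sub, sum_sub_distrib]

lemma Ex_const_mul (p c : ℝ) (f : (α → Bool) → ℝ) :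
    Ex p (fun x => c * f x) = c * Ex p f := by
  simp only [Ex, mul_sum]
  exact sum_congr rfl fun x _ => by ring

lemma Ex_mul_const (p c : ℝ) (f : (α → Bool) → ℝ) :
    Ex p (fun x => f x * c) = Ex p f * c := by
  simp only [Ex, sum_mul]
  exact sum_congr rfl fun x _ => by ring

lemma Ex_sum {ι : Type*} (p : ℝ) (s : Finset ι) (f : ι → (α → Bool) → ℝ) :
    Ex p (fun x => ∑ i ∈ s, f i x) = ∑ i ∈ s, Ex p (f i) := by
  simp only [Ex, mul_sum]
  exact sum_comm

lemma Ex_congr {p : ℝ} {f g : (α → Bool) → ℝ} (h : ∀ x, f x = g x) : Ex p f = Ex p g := by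
  rw [funext h]

lemma Ex_mono {p : ℝ} (h0 : 0 ≤ p) (h1 : p ≤ 1) {f g : (α → Bool) → ℝ}
    (h : ∀ x, f x ≤ g x) : Ex p f ≤ Ex p g :=
  sum_le_sum fun x _ => mul_le_mul_of_nonneg_left (h x) (wt_nonneg h0 h1 x)

lemma Ex_nonneg {p : ℝ} (h0 : 0 ≤ p) (h1 : p ≤ 1) {f : (α → Bool) → ℝ}
    (h : ∀ x, 0 ≤ f x) : 0 ≤ Ex p f :=
  sum_nonneg fun x _ => mul_nonneg (wt_nonneg h0 h1 x) (h x)

lemma Ex_comm (p : ℝ) (H : (α → Bool) → (α → Bool) → ℝ) :
    Ex p (fun z => Ex p (fun x => H z x)) = Ex p (fun x => Ex p (fun z => H z x)) := by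
  simp only [Ex, mul_sum]
  rw [sum_comm]
  exact sum_congr rfl fun x _ => sum_congr rfl fun z _ => by ring

/-- Replace the coordinates in `J` of `z` by those of `x`. -/
def merge (J : Finset α) (z x : α → Bool) : α → Bool := fun e => if e ∈ J then x e else z e

lemma merge_merge (J : Finset α) (z x : α → Bool) :
    merge J (merge J z x) (merge J x z) = z := by
  funext e
  unfold merge
  split_ifs <;> rfl

lemma wt_merge_mul (p : ℝ) (J : Finset α) (z x : α → Bool) :
    wt p (merge J z x) * wt p (merge J x z) = wt p z * wt p x := by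
  unfold wt
  rw [← prod_mul_distrib, ← prod_mul_distrib]
  refine prod_congr rfl fun e _ => ?_
  unfold merge
  by_cases he : e ∈ J <;> simp [he, mul_comm]

lemma Ex_merge (p : ℝ) (J : Finset α) (g : (α → Bool) → ℝ) :
    Ex p (fun z => Ex p (fun x => g (merge J z x))) = Ex p g := by
  have h1 : Ex p g = ∑ q : (α → Bool) × (α → Bool), wt p q.1 * (wt p q.2 * g q.1) := by
    rw [Fintype.sum_prod_type]
    have h : ∀ z, Ex (α := α) p (fun _ => g z) = g z := fun z => Ex_const p _
    unfold Ex at h ⊢
    refine sum_congr rfl fun z _ => ?_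
    simp only
    rw [← mul_sum, h z]
  have h2 : Ex p (fun z => Ex p (fun x => g (merge J z x)))
      = ∑ q : (α → Bool) × (α → Bool), wt p q.1 * (wt p q.2 * g (merge J q.1 q.2)) := by
    rw [Fintype.sum_prod_type]
    simp only [Ex, mul_sum]
  rw [h1, h2]
  refine Fintype.sum_bijective (fun q => (merge J q.1 q.2, merge J q.2 q.1))
    (Function.Involutive.bijective fun q => ?_) _ _ fun q => ?_
  · simp only [merge_merge, Prod.mk.eta]
  · simp only
    rw [← mul_assoc, ← mul_assoc, wt_merge_mul]

lemma Ex_bit (p : ℝ) (e : α) (h : Bool → ℝ) :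
    Ex p (fun x : α → Bool => h (x e)) = p * h true + (1 - p) * h false := by
  have h1 := Ex_prod p (fun (e' : α) (b : Bool) => if e' = e then h b else 1)
  simp only [prod_ite_eq', mem_univ, if_true] at h1
  rw [h1, prod_eq_single e (fun b _ hb => by simp [hb]) (fun hc => absurd (mem_univ e) hc)]
  simp

lemma Ex_split (p : ℝ) (e : α) (G : (α → Bool) → ℝ) :
    Ex p G = Ex p (fun z => p * G (Function.update z e true)
      + (1 - p) * G (Function.update z e false)) := by
  rw [← Ex_merge p {e} G]
  refine Ex_congr fun z => ?_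
  have : ∀ x, merge {e} z x = Function.update z e (x e) := by
    intro x
    funext e'
    unfold merge
    by_cases he : e' = e
    · subst he; simp
    · simp [he, Function.update_of_ne he]
  simp only [this]
  exact Ex_bit p e fun b => G (Function.update z e b)

lemma wt_pos {p : ℝ} (h0 : 0 < p) (h1 : p < 1) (x : α → Bool) : 0 < wt p x := by
  refine prod_pos fun e _ => ?_
  split_ifs <;> linarith

variable {p : ℝ}

lemma sd_pos (h0 : 0 < p) (h1 : p < 1) : 0 < sd p :=
  Real.sqrt_pos.2 (mul_pos h0 (by linarith))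

lemma sd_sq (h0 : 0 < p) (h1 : p < 1) : sd p ^ 2 = p * (1 - p) :=
  Real.sq_sqrt (mul_nonneg h0.le (by linarith))

lemma phi_mean (p : ℝ) : p * phi p true + (1 - p) * phi p false = 0 := by
  simp only [phi, if_true, Bool.false_eq_true, if_false]
  ring

lemma phi_second (h0 : 0 < p) (h1 : p < 1) :
    p * phi p true ^ 2 + (1 - p) * phi p false ^ 2 = 1 := by
  have hs := sd_sq h0 h1
  have hs0 := (sd_pos h0 h1).ne'
  simp only [phi, if_true, Bool.false_eq_true, if_false]
  field_simp
  rw [hs]
  ring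

lemma chi_eq_univ (S : Finset α) (x : α → Bool) :
    chi p S x = ∏ e, if e ∈ S then phi p (x e) else 1 := by
  rw [chi, prod_ite_mem, univ_inter]

lemma orth (h0 : 0 < p) (h1 : p < 1) (S T : Finset α) :
    Ex p (fun x => chi p S x * chi p T x) = if S = T then 1 else 0 := by
  simp only [chi_eq_univ, ← prod_mul_distrib]
  rw [Ex_prod p (fun e b => (if e ∈ S then phi p b else 1) * (if e ∈ T then phi p b else 1))]
  have h2 := phi_second h0 h1
  have h1' := phi_mean p
  split_ifs with hST
  · subst hST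
    refine prod_eq_one fun e _ => ?_
    by_cases he : e ∈ S
    · simp only [he, if_true]; linear_combination h2
    · simp [he]
  · obtain ⟨e, he⟩ : ∃ e, ¬(e ∈ S ↔ e ∈ T) := by
      by_contra hc
      simp only [not_exists, not_not] at hc
      exact hST (Finset.ext hc)
    refine prod_eq_zero (mem_univ e) ?_
    by_cases h : e ∈ S
    · have h' : e ∉ T := fun h' => he (iff_of_true h h')
      simp only [h, h', if_true, if_false]
      linear_combination h1'
    · have h' : e ∈ T := not_not.1 fun h' => he (iff_of_false h h')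
      simp only [h, h', if_true, if_false]
      linear_combination h1'

lemma expansion (h0 : 0 < p) (h1 : p < 1) (f : (α → Bool) → ℝ) (x : α → Bool) :
    f x = ∑ S, coef p f S * chi p S x := by
  have key : ∀ y, ∑ S, chi p S y * chi p S x = ∏ e, (1 + phi p (y e) * phi p (x e)) := by
    intro y
    rw [prod_one_add, powerset_univ]
    exact sum_congr rfl fun S _ => by rw [chi, chi, ← prod_mul_distrib]
  have hz : ∀ y, y ≠ x → ∏ e, (1 + phi p (y e) * phi p (x e)) = 0 := by
    intro y hy
    obtain ⟨e, he⟩ := Function.ne_iff.1 hy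
    refine prod_eq_zero (mem_univ e) ?_
    have hs := sd_sq h0 h1
    have hs0 := (sd_pos h0 h1).ne'
    revert he
    cases y e <;> cases x e <;> simp [phi] <;> field_simp <;> rw [hs] <;> ring
  have hx : wt p x * ∏ e, (1 + phi p (x e) * phi p (x e)) = 1 := by
    unfold wt
    rw [← prod_mul_distrib]
    refine prod_eq_one fun e _ => ?_
    have hs := sd_sq h0 h1
    have hs0 := (sd_pos h0 h1).ne'
    cases x e <;> simp [phi] <;> field_simp <;> rw [hs] <;> ring
  calc f x = ∑ y, wt p y * f y * ∏ e, (1 + phi p (y e) * phi p (x e)) := by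
        rw [sum_eq_single x (fun y _ hy => by rw [hz y hy, mul_zero])
          (fun hc => absurd (mem_univ x) hc)]
        linear_combination -(f x) * hx
    _ = ∑ y, ∑ S, wt p y * f y * (chi p S y * chi p S x) := by
        simp only [← mul_sum, key]
    _ = _ := by
        rw [sum_comm]
        refine sum_congr rfl fun S _ => ?_
        rw [coef, Ex, sum_mul]
        exact sum_congr rfl fun y _ => by ring

lemma Ex_mul_eq (h0 : 0 < p) (h1 : p < 1) (f g : (α → Bool) → ℝ) :
    Ex p (fun x => f x * g x) = ∑ S, coef p f S * coef p g S := by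
  calc Ex p (fun x => f x * g x)
      = Ex p (fun x => ∑ S, coef p f S * (g x * chi p S x)) := Ex_congr fun x => by
        conv_lhs => rw [expansion h0 h1 f x, sum_mul]
        exact sum_congr rfl fun S _ => by ring
    _ = _ := by
        rw [Ex_sum]
        exact sum_congr rfl fun S _ => by rw [Ex_const_mul]; rfl

lemma parseval (h0 : 0 < p) (h1 : p < 1) (f : (α → Bool) → ℝ) :
    ∑ S, coef p f S ^ 2 = Ex p (fun x => f x ^ 2) := by
  simp only [pow_two]
  exact (Ex_mul_eq h0 h1 f f).symm

lemma coef_sum (h0 : 0 < p) (h1 : p < 1) (A : Finset (Finset α)) (a : Finset α → ℝ)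
    (S : Finset α) :
    coef p (fun x => ∑ T ∈ A, a T * chi p T x) S = if S ∈ A then a S else 0 := by
  unfold coef
  simp only [sum_mul]
  rw [Ex_sum]
  simp only [mul_assoc, Ex_const_mul, orth h0 h1, mul_ite, mul_one, mul_zero]
  rw [sum_ite_eq']

lemma Ex_sq_sum (h0 : 0 < p) (h1 : p < 1) (A : Finset (Finset α)) (a : Finset α → ℝ) :
    Ex p (fun x => (∑ T ∈ A, a T * chi p T x) ^ 2) = ∑ T ∈ A, a T ^ 2 := by
  rw [← parseval h0 h1]
  simp only [coef_sum h0 h1, ite_pow, ne_eq, OfNat.ofNat_ne_zero, not_false_eq_true, zero_pow]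
  rw [sum_ite_mem, univ_inter]

lemma Ex_mul_sq_le (h0 : 0 ≤ p) (h1 : p ≤ 1) (f g : (α → Bool) → ℝ) :
    Ex p (fun x => f x * g x) ^ 2 ≤ Ex p (fun x => f x ^ 2) * Ex p (fun x => g x ^ 2) := by
  have key : ∀ (h : (α → Bool) → ℝ) x, wt p x * h x ^ 2 = (Real.sqrt (wt p x) * h x) ^ 2 :=
    fun h x => by rw [mul_pow, Real.sq_sqrt (wt_nonneg h0 h1 x)]
  have key2 : ∀ x, wt p x * (f x * g x)
      = (Real.sqrt (wt p x) * f x) * (Real.sqrt (wt p x) * g x) := fun x => by
    have := Real.mul_self_sqrt (wt_nonneg h0 h1 x)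
    linear_combination -(f x * g x) * this
  simp only [Ex, key, key2]
  exact sum_mul_sq_le_sq_mul_sq univ _ _

/-- Fourth-moment inequality for one biased bit. -/
lemma bit_fourth (h0 : 0 < p) (h1 : p < 1) (a b : ℝ) :
    p * (a + b * phi p true) ^ 4 + (1 - p) * (a + b * phi p false) ^ 4
      ≤ a ^ 4 + 8 * (a ^ 2 * b ^ 2) + 3 / sd p ^ 2 * b ^ 4 := by
  have hs : 0 < sd p := sd_pos h0 h1
  have hs2 := sd_sq h0 h1
  set m3 := p * phi p true ^ 3 + (1 - p) * phi p false ^ 3 with hm3
  set m4 := p * phi p true ^ 4 + (1 - p) * phi p false ^ 4 with hm4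
  have e3 : m3 = (1 - 2 * p) / sd p := by
    simp only [hm3, phi, if_true, Bool.false_eq_true, if_false]
    field_simp
    rw [hs2]
    ring
  have e4 : m4 = (1 - 3 * p + 3 * p ^ 2) / sd p ^ 2 := by
    simp only [hm4, phi, if_true, Bool.false_eq_true, if_false]
    field_simp
    rw [hs2]
    ring
  have b3 : m3 ^ 2 ≤ 1 / sd p ^ 2 := by
    rw [e3, div_pow]
    gcongr
    nlinarith
  have b4 : m4 ≤ 1 / sd p ^ 2 := by
    rw [e4]
    gcongr
    nlinarith
  have hexp : p * (a + b * phi p true) ^ 4 + (1 - p) * (a + b * phi p false) ^ 4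
      = a ^ 4 + 6 * (a ^ 2 * b ^ 2) + 4 * (a * b ^ 3) * m3 + b ^ 4 * m4 := by
    linear_combination (4 * a ^ 3 * b) * phi_mean p
      + (6 * a ^ 2 * b ^ 2) * phi_second h0 h1
  have hb4 : 0 ≤ b ^ 4 := by positivity
  have t1 := mul_le_mul_of_nonneg_left b3 hb4
  have t2 := mul_le_mul_of_nonneg_left b4 hb4
  have t3 : 4 * (a * b ^ 3) * m3 ≤ 2 * (a ^ 2 * b ^ 2) + 2 * (b ^ 4 * m3 ^ 2) := by
    nlinarith [sq_nonneg (a * b - b ^ 2 * m3)]
  have t4 : 3 / sd p ^ 2 * b ^ 4 = 3 * (b ^ 4 * (1 / sd p ^ 2)) := by ring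
  rw [hexp, t4]
  linarith

/-- The hypercontractive constant. -/
noncomputable def bon (p : ℝ) : ℝ := 4 / sd p

lemma chi_update (S : Finset α) {e : α} (he : e ∉ S) (x : α → Bool) (b : Bool) :
    chi p S (Function.update x e b) = chi p S x :=
  prod_congr rfl fun i hi => by
    rw [Function.update_of_ne]
    rintro rfl
    exact he hi

lemma bon_ge (h0 : 0 < p) (h1 : p < 1) : 8 ≤ bon p := by
  have hs := sd_pos h0 h1
  have h2 := sd_sq h0 h1
  have : sd p ≤ 1 / 2 := by nlinarith [sq_nonneg (p - 1 / 2)]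
  rw [bon, le_div_iff₀ hs]
  linarith

/-- Bonami inequality for the biased cube, with weights. -/
theorem bonami (h0 : 0 < p) (h1 : p < 1) (U : Finset α) (a : Finset α → ℝ) :
    Ex p (fun x => (∑ S ∈ U.powerset, a S * chi p S x) ^ 4)
      ≤ (∑ S ∈ U.powerset, bon p ^ S.card * a S ^ 2) ^ 2 := by
  induction U using Finset.induction_on generalizing a with
  | empty =>
    simp only [powerset_empty, sum_singleton, chi, prod_empty, mul_one, card_empty, pow_zero,
      one_mul, Ex_const]
    exact le_of_eq (by ring)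
  | @insert i U hi ih =>
    set G := fun x => ∑ S ∈ U.powerset, a S * chi p S x with hG
    set H := fun x => ∑ S ∈ U.powerset, a (insert i S) * chi p S x with hH
    have hnot : ∀ S ∈ U.powerset, i ∉ S := fun S hS hc => hi (mem_powerset.1 hS hc)
    have hsplit : ∀ x, ∑ S ∈ (insert i U).powerset, a S * chi p S x
        = G x + H x * phi p (x i) := by
      intro x
      rw [sum_powerset_insert hi]
      simp only [hG, hH, sum_mul]
      congr 1
      refine sum_congr rfl fun S hS => ?_
      simp only [chi, prod_insert (hnot S hS)]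
      ring
    have hGu : ∀ x b, G (Function.update x i b) = G x := fun x b =>
      sum_congr rfl fun S hS => by rw [chi_update S (hnot S hS)]
    have hHu : ∀ x b, H (Function.update x i b) = H x := fun x b =>
      sum_congr rfl fun S hS => by rw [chi_update S (hnot S hS)]
    set A := ∑ S ∈ U.powerset, bon p ^ S.card * a S ^ 2 with hA
    set B' := ∑ S ∈ U.powerset, bon p ^ S.card * a (insert i S) ^ 2 with hB'
    have hB := bon_ge h0 h1
    have hB0 : 0 ≤ bon p := by linarith
    have hA0 : 0 ≤ A := sum_nonneg fun S _ => mul_nonneg (pow_nonneg hB0 _) (sq_nonneg _)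
    have hB0' : 0 ≤ B' := sum_nonneg fun S _ => mul_nonneg (pow_nonneg hB0 _) (sq_nonneg _)
    have e1 : ∑ S ∈ (insert i U).powerset, bon p ^ S.card * a S ^ 2 = A + bon p * B' := by
      rw [sum_powerset_insert hi, hA, hB', mul_sum]
      congr 1
      refine sum_congr rfl fun S hS => ?_
      rw [card_insert_of_notMem (hnot S hS), pow_succ]
      ring
    rw [e1]
    simp only [hsplit]
    rw [Ex_split p i]
    simp only [hGu, hHu, Function.update_self]
    calc Ex p (fun z => p * (G z + H z * phi p true) ^ 4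
          + (1 - p) * (G z + H z * phi p false) ^ 4)
        ≤ Ex p (fun z => G z ^ 4 + 8 * (G z ^ 2 * H z ^ 2) + 3 / sd p ^ 2 * H z ^ 4) :=
          Ex_mono h0.le h1.le fun z => bit_fourth h0 h1 _ _
      _ = Ex p (fun z => G z ^ 4) + 8 * Ex p (fun z => G z ^ 2 * H z ^ 2)
            + 3 / sd p ^ 2 * Ex p (fun z => H z ^ 4) := by
          rw [Ex_add, Ex_add, Ex_const_mul, Ex_const_mul]
      _ ≤ A ^ 2 + 8 * (A * B') + 3 / sd p ^ 2 * B' ^ 2 := by
          have g4 := ih a
          have h4 := ih fun S => a (insert i S)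
          have cs := Ex_mul_sq_le h0.le h1.le (fun z => G z ^ 2) (fun z => H z ^ 2)
          simp only [← pow_mul] at cs
          norm_num at cs
          have n1 : 0 ≤ Ex p (fun z => G z ^ 4) :=
            Ex_nonneg h0.le h1.le fun z => by positivity
          have n2 : 0 ≤ Ex p (fun z => H z ^ 4) :=
            Ex_nonneg h0.le h1.le fun z => by positivity
          have gh : Ex p (fun z => G z ^ 2 * H z ^ 2) ≤ A * B' := by
            refine le_of_pow_le_pow_left₀ two_ne_zero (by positivity) (cs.trans ?_)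
            rw [mul_pow]
            exact mul_le_mul g4 h4 n2 (sq_nonneg _)
          have hc : (0:ℝ) ≤ 3 / sd p ^ 2 := by positivity
          have := mul_le_mul_of_nonneg_left h4 hc
          linarith
      _ ≤ (A + bon p * B') ^ 2 := by
          have hAB : 0 ≤ A * B' := mul_nonneg hA0 hB0'
          have hM : 3 / sd p ^ 2 ≤ bon p ^ 2 := by
            rw [bon, div_pow]
            gcongr
            norm_num
          nlinarith [mul_le_mul_of_nonneg_right hM (sq_nonneg B'),
            mul_le_mul_of_nonneg_right hB hAB]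

end Vale.Agent.P063
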