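import Vale.Agent.P063.Fourier

/-! The restriction inequality for Boolean functions on the biased cube. -/

set_option linter.unusedSectionVars false

namespace Vale.Agent.P063

open Finset

variable {α : Type*} [Fintype α] [DecidableEq α] {p : ℝ}

/-- The discrete derivative in coordinate `e`. -/
def diff (e : α) (f : (α → Bool) → ℝ) (x : α → Bool) : ℝ :=
  f (Function.update x e true) - f (Function.update x e false)

/-- The pivotality probability of coordinate `e`. -/
noncomputable def piv (p : ℝ) (e : α) (f : (α → Bool) → ℝ) : ℝ :=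
  Ex p fun x => |diff e f x|

/-- The sum of pivotality probabilities. -/
noncomputable def totalInf (p : ℝ) (f : (α → Bool) → ℝ) : ℝ := ∑ e, piv p e f

/-- A function with values zero and one. -/
def IsBit (f : (α → Bool) → ℝ) : Prop := ∀ x, f x = 0 ∨ f x = 1

lemma piv_nonneg (h0 : 0 ≤ p) (h1 : p ≤ 1) (e : α) (f : (α → Bool) → ℝ) : 0 ≤ piv p e f :=
  Ex_nonneg h0 h1 fun _ => abs_nonneg _

lemma totalInf_nonneg (h0 : 0 ≤ p) (h1 : p ≤ 1) (f : (α → Bool) → ℝ) : 0 ≤ totalInf p f :=
  sum_nonneg fun e _ => piv_nonneg h0 h1 e f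

lemma IsBit.diff_sq {f : (α → Bool) → ℝ} (hf : IsBit f) (e : α) (x : α → Bool) :
    diff e f x ^ 2 = |diff e f x| ∧ diff e f x * |diff e f x| = diff e f x := by
  unfold diff
  rcases hf (Function.update x e true) with h | h <;>
    rcases hf (Function.update x e false) with h' | h' <;> simp [h, h']

lemma IsBit.sq_eq {f : (α → Bool) → ℝ} (hf : IsBit f) (x : α → Bool) : f x ^ 2 = f x := by
  rcases hf x with h | h <;> simp [h]

lemma IsBit.merge {f : (α → Bool) → ℝ} (hf : IsBit f) (J : Finset α) (z : α → Bool) :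
    IsBit fun x => f (merge J z x) := fun _ => hf _

lemma IsBit.parseval_le {f : (α → Bool) → ℝ} (hf : IsBit f) (h0 : 0 < p) (h1 : p < 1)
    (A : Finset (Finset α)) : ∑ S ∈ A, coef p f S ^ 2 ≤ 1 := by
  refine (sum_le_sum_of_subset_of_nonneg (subset_univ A) fun _ _ _ => sq_nonneg _).trans ?_
  rw [parseval h0 h1]
  calc Ex p (fun x => f x ^ 2) ≤ Ex p (fun _ : α → Bool => (1 : ℝ)) :=
        Ex_mono h0.le h1.le fun x => by rcases hf x with h | h <;> simp [h]
    _ = 1 := Ex_const p 1

lemma coef_insert (h0 : 0 < p) (h1 : p < 1) (f : (α → Bool) → ℝ) (e : α) {S : Finset α}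
    (hS : e ∉ S) :
    coef p f (insert e S) = sd p * Ex p (fun x => diff e f x * chi p S x) := by
  unfold coef
  rw [Ex_split p e, ← Ex_const_mul]
  refine Ex_congr fun z => ?_
  have hs := (sd_pos h0 h1).ne'
  have hs2 := sd_sq h0 h1
  simp only [chi, prod_insert hS, Function.update_self]
  simp only [← chi.eq_def, chi_update S hS]
  simp only [diff, phi, if_true, Bool.false_eq_true, if_false]
  field_simp
  rw [hs2]
  ring

lemma coef_diff_of_mem (p : ℝ) (f : (α → Bool) → ℝ) (e : α) {S : Finset α} (hS : e ∈ S) :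
    coef p (diff e f) S = 0 := by
  unfold coef
  rw [Ex_split p e, ← Ex_const (α := α) p (0 : ℝ)]
  refine Ex_congr fun z => ?_
  have hd : ∀ b, diff e f (Function.update z e b) = diff e f z := fun b => by
    simp [diff]
  rw [← insert_erase hS]
  simp only [chi, prod_insert (notMem_erase e S), Function.update_self]
  simp only [← chi.eq_def, chi_update _ (notMem_erase e S), hd]
  linear_combination (diff e f z * chi p (S.erase e) z) * phi_mean p

/-- Spectral formula for one pivotality probability. -/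
lemma spec_piv {f : (α → Bool) → ℝ} (hf : IsBit f) (h0 : 0 < p) (h1 : p < 1) (e : α) :
    ∑ S ∈ univ.filter (fun S : Finset α => e ∈ S), coef p f S ^ 2 = sd p ^ 2 * piv p e f := by
  have hpar : piv p e f = ∑ S, coef p (diff e f) S ^ 2 := by
    rw [parseval h0 h1]
    exact Ex_congr fun x => ((hf.diff_sq e x).1).symm
  rw [hpar, mul_sum, ← sum_filter_add_sum_filter_not univ (fun S : Finset α => e ∈ S)
    (fun S => sd p ^ 2 * coef p (diff e f) S ^ 2)]
  rw [sum_eq_zero (s := univ.filter _) (f := fun S => sd p ^ 2 * coef p (diff e f) S ^ 2)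
    (fun S hS => by rw [coef_diff_of_mem p f e (mem_filter.1 hS).2]; ring), zero_add]
  refine sum_nbij' (fun S => S.erase e) (fun S => insert e S) ?_ ?_ ?_ ?_ ?_
  · intro S _; simp
  · intro S _; simp
  · intro S hS; exact insert_erase (mem_filter.1 hS).2
  · intro S hS; exact erase_insert (mem_filter.1 hS).2
  · intro S hS
    conv_lhs => rw [← insert_erase (mem_filter.1 hS).2]
    rw [coef_insert h0 h1 f e (notMem_erase e S), coef, mul_pow]

/-- Average spectral degree equals total influence. -/
lemma spec_total {f : (α → Bool) → ℝ} (hf : IsBit f) (h0 : 0 < p) (h1 : p < 1) :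
    ∑ S : Finset α, (S.card : ℝ) * coef p f S ^ 2 = sd p ^ 2 * totalInf p f := by
  rw [totalInf, mul_sum]
  simp only [← spec_piv hf h0 h1, sum_filter]
  rw [sum_comm]
  refine sum_congr rfl fun S _ => ?_
  rw [sum_ite_mem, univ_inter, sum_const, nsmul_eq_mul]

/-- Low-degree Fourier weight through a coordinate. -/
noncomputable def lowW (p : ℝ) (d : ℕ) (e : α) (f : (α → Bool) → ℝ) : ℝ :=
  ∑ S ∈ univ.filter (fun S : Finset α => e ∈ S ∧ S.card ≤ d), coef p f S ^ 2

lemma lowW_le {f : (α → Bool) → ℝ} (hf : IsBit f) (h0 : 0 < p) (h1 : p < 1) (d : ℕ) (e : α) :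
    lowW p d e f ≤ sd p ^ 2 * bon p ^ d * (piv p e f * Real.sqrt (piv p e f)) := by
  set Be := univ.filter (fun S : Finset α => e ∉ S ∧ S.card < d) with hBe
  set c := fun S => coef p f (insert e S) with hc
  set W := lowW p d e f with hW
  have hWeq : W = ∑ S ∈ Be, c S ^ 2 := by
    rw [hW, lowW]
    refine sum_nbij' (fun S => S.erase e) (fun S => insert e S) ?_ ?_ ?_ ?_ ?_
    · intro S hS
      obtain ⟨h, hd⟩ := (mem_filter.1 hS).2
      simp only [mem_coe, hBe, mem_filter, mem_univ, notMem_erase, not_false_eq_true, true_and]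
      rw [card_erase_of_mem h]
      have := card_pos.2 ⟨e, h⟩
      omega
    · intro S hS
      obtain ⟨h, hd⟩ := (mem_filter.1 hS).2
      simp only [mem_coe, mem_filter, mem_univ, mem_insert_self, true_and]
      rw [card_insert_of_notMem h]
      omega
    · intro S hS; exact insert_erase (mem_filter.1 hS).2.1
    · intro S hS; exact erase_insert (mem_filter.1 hS).2.1
    · intro S hS
      simp only [hc, insert_erase (mem_filter.1 hS).2.1]
  set h := fun x => ∑ S ∈ Be, c S * chi p S x with hh
  set D := diff e f with hD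
  have hWD : W = sd p * Ex p (fun x => D x * h x) := by
    simp only [hh, mul_sum]
    rw [Ex_sum, mul_sum, hWeq]
    refine sum_congr rfl fun S hS => ?_
    have hS' := (mem_filter.1 hS).2.1
    calc c S ^ 2 = c S * (sd p * Ex p (fun x => D x * chi p S x)) := by
          rw [← coef_insert h0 h1 f e hS', pow_two]
      _ = _ := by
          rw [← mul_assoc, mul_comm (c S), mul_assoc, ← Ex_const_mul p (c S)]
          exact congrArg _ (Ex_congr fun x => by ring)
  have hB1 : 1 ≤ bon p := by linarith [bon_ge h0 h1]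
  have hW0 : 0 ≤ W := hWeq ▸ sum_nonneg fun _ _ => sq_nonneg _
  have hh4 : Ex p (fun x => h x ^ 4) ≤ (bon p ^ d * W) ^ 2 := by
    have hb := bonami h0 h1 univ (fun S => if S ∈ Be then c S else 0)
    simp only [powerset_univ, ite_mul, zero_mul, ite_pow, ne_eq, OfNat.ofNat_ne_zero,
      not_false_eq_true, zero_pow, mul_ite, mul_zero, sum_ite_mem, univ_inter] at hb
    refine hb.trans (pow_le_pow_left₀ ?_ ?_ 2)
    · exact sum_nonneg fun S _ => mul_nonneg (pow_nonneg (by linarith) _) (sq_nonneg _)
    · rw [hWeq, mul_sum]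
      refine sum_le_sum fun S hS => mul_le_mul_of_nonneg_right ?_ (sq_nonneg _)
      exact pow_le_pow_right₀ hB1 (mem_filter.1 hS).2.2.le
  set π := piv p e f with hπ
  have hπ0 : 0 ≤ π := piv_nonneg h0.le h1.le e f
  have cs1 : Ex p (fun x => D x * h x) ^ 2 ≤ π * Ex p (fun x => |D x| * h x ^ 2) := by
    have := Ex_mul_sq_le h0.le h1.le (fun x => |D x|) (fun x => D x * h x)
    rw [Ex_congr (f := fun x => |D x| * (D x * h x)) (g := fun x => D x * h x) fun x => by
      linear_combination (h x) * (hf.diff_sq e x).2] at this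
    refine this.trans (le_of_eq ?_)
    congr 1
    · exact Ex_congr fun x => by rw [sq_abs]; exact (hf.diff_sq e x).1
    · exact Ex_congr fun x => by rw [mul_pow, (hf.diff_sq e x).1]
  have cs2 : Ex p (fun x => |D x| * h x ^ 2) ≤ Real.sqrt π * (bon p ^ d * W) := by
    have := Ex_mul_sq_le h0.le h1.le (fun x => |D x|) (fun x => h x ^ 2)
    rw [Ex_congr (f := fun x => |D x| ^ 2) (g := fun x => |D x|) fun x => by
      rw [sq_abs]; exact (hf.diff_sq e x).1] at this
    simp only [← pow_mul] at this
    norm_num at this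
    have hn : 0 ≤ bon p ^ d * W := mul_nonneg (pow_nonneg (by linarith) _) hW0
    refine le_of_pow_le_pow_left₀ two_ne_zero (mul_nonneg (Real.sqrt_nonneg _) hn) ?_
    rw [mul_pow, Real.sq_sqrt hπ0]
    exact this.trans (mul_le_mul_of_nonneg_left hh4 hπ0)
  have key : W ^ 2 ≤ sd p ^ 2 * (π * (Real.sqrt π * (bon p ^ d * W))) := by
    calc W ^ 2 = sd p ^ 2 * Ex p (fun x => D x * h x) ^ 2 := by rw [hWD, mul_pow]
      _ ≤ _ := mul_le_mul_of_nonneg_left (cs1.trans (mul_le_mul_of_nonneg_left cs2 hπ0))
          (sq_nonneg _)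
  rcases hW0.eq_or_lt with hz | hpos
  · rw [← hz]
    have : 0 ≤ bon p ^ d := pow_nonneg (by linarith) _
    positivity
  · refine le_of_mul_le_mul_right ?_ hpos
    rw [← pow_two]
    exact key.trans (le_of_eq (by ring))

lemma chi_merge (J S : Finset α) (z x : α → Bool) :
    chi p S (merge J z x) = chi p (S ∩ J) x * chi p (S \ J) z := by
  unfold chi
  rw [← prod_inter_mul_prod_sdiff S J fun e => phi p (merge J z x e)]
  congr 1
  · exact prod_congr rfl fun e he => by simp [merge, (mem_inter.1 he).2]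
  · exact prod_congr rfl fun e he => by simp [merge, (mem_sdiff.1 he).2]

lemma coef_merge (h0 : 0 < p) (h1 : p < 1) (f : (α → Bool) → ℝ) (J : Finset α)
    (z : α → Bool) (T : Finset α) :
    coef p (fun x => f (merge J z x)) T
      = ∑ S ∈ univ.filter (fun S : Finset α => S ∩ J = T), coef p f S * chi p (S \ J) z := by
  calc coef p (fun x => f (merge J z x)) T
      = Ex p (fun x => ∑ S, coef p f S * chi p (S \ J) z
          * (chi p (S ∩ J) x * chi p T x)) := Ex_congr fun x => by
        simp only
        rw [expansion h0 h1 f (merge J z x), sum_mul]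
        exact sum_congr rfl fun S _ => by rw [chi_merge]; ring
    _ = _ := by
        simp only [Ex_sum, Ex_const_mul, orth h0 h1, mul_ite, mul_one, mul_zero, sum_filter]

lemma sdiff_inj_of_inter_eq {J S S' : Finset α} (h : S ∩ J = S' ∩ J) (h' : S \ J = S' \ J) :
    S = S' := by
  rw [← sdiff_union_inter S J, ← sdiff_union_inter S' J, h, h']

lemma mul_split (good : Prop) [Decidable good] {θ : ℝ} (hθ : 0 < θ) (g g' : ℝ) :
    g * g' ≤ θ / 2 * g ^ 2 + θ / 2 * g' ^ 2
      + ((if good then 0 else g ^ 2) + (if good then g' ^ 2 else 0)) / (2 * θ) := by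
  have n1 : 0 ≤ θ / 2 * g ^ 2 := by positivity
  have n2 : 0 ≤ θ / 2 * g' ^ 2 := by positivity
  split_ifs
  · have h : g * g' ≤ θ / 2 * g ^ 2 + g' ^ 2 / (2 * θ) := by
      rw [div_mul_eq_mul_div, div_add_div _ _ two_ne_zero (by positivity),
        le_div_iff₀ (by positivity)]
      nlinarith [sq_nonneg (θ * g - g')]
    simp only [zero_add]
    linarith
  · have h : g * g' ≤ θ / 2 * g' ^ 2 + g ^ 2 / (2 * θ) := by
      rw [div_mul_eq_mul_div, div_add_div _ _ two_ne_zero (by positivity),
        le_div_iff₀ (by positivity)]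
      nlinarith [sq_nonneg (θ * g' - g)]
    simp only [add_zero]
    linarith

/-- The restriction inequality. -/
theorem master {f : (α → Bool) → ℝ} (hf : IsBit f) (h0 : 0 < p) (h1 : p < 1)
    (J : Finset α) (P : Finset (Finset α)) (d : ℕ) {R τ ν θ : ℝ}
    (hR : 0 < R) (hτ : 0 < τ) (hν : 0 < ν) (hθ : 0 < θ)
    (hd : ∀ S ∈ P, 1 ≤ (S ∩ J).card ∧ (S ∩ J).card ≤ d)
    (hP : ∀ T : Finset α,
      (2 * R) ^ T.card * (∑ S ∈ P.filter (fun S => S ∩ J = T), bon p ^ S.card * coef p f S ^ 2) ^ 2
        ≤ ν ^ 2 * ∑ S ∈ P.filter (fun S => S ∩ J = T), coef p f S ^ 2) :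
    ∑ S ∈ P, coef p f S ^ 2
      ≤ θ + (bon p ^ d * sd p ^ 2 * Real.sqrt τ * totalInf p f
        + totalInf p f / (τ * R) + 2 * ν) / θ := by
  classical
  set Q := P.image (fun S => S ∩ J) with hQ
  set fib := fun T => P.filter (fun S => S ∩ J = T) with hfib
  set g := fun T z => coef p (fun x => f (merge J z x)) T with hg
  set g' := fun T z => ∑ S ∈ fib T, coef p f S * chi p (S \ J) z with hg'
  set a := fun T => ∑ S ∈ fib T, coef p f S ^ 2 with ha
  set M := ∑ S ∈ P, coef p f S ^ 2 with hM
  have hMa : M = ∑ T ∈ Q, a T :=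
    (sum_fiberwise_of_maps_to (fun S hS => mem_image_of_mem _ hS) _).symm
  have hM1 : M ≤ 1 := hf.parseval_le h0 h1 P
  have hTJ : ∀ T ∈ Q, T ⊆ J ∧ 1 ≤ T.card ∧ T.card ≤ d := by
    intro T hT
    obtain ⟨S, hS, rfl⟩ := mem_image.1 hT
    exact ⟨inter_subset_right, hd S hS⟩
  have hgg : ∀ T, Ex p (fun z => g T z * g' T z) = a T := by
    intro T
    simp only [hg, hg', ha, coef_merge h0 h1, mul_sum, Ex_sum]
    refine sum_congr rfl fun S hS => ?_
    have hST : S ∩ J = T := (mem_filter.1 hS).2
    rw [Ex_congr (g := fun z => ∑ S' ∈ univ.filter (fun S' : Finset α => S' ∩ J = T),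
      (coef p f S' * coef p f S) * (chi p (S' \ J) z * chi p (S \ J) z)) fun z => by
        rw [sum_mul]; exact sum_congr rfl fun _ _ => by ring]
    simp only [Ex_sum, Ex_const_mul, orth h0 h1, mul_ite, mul_one, mul_zero]
    rw [sum_eq_single S]
    · simp [pow_two]
    · intro S' hS' hne
      exact if_neg fun h => hne
        (sdiff_inj_of_inter_eq ((mem_filter.1 hS').2.trans hST.symm) h)
    · exact fun h => absurd (mem_filter.2 ⟨mem_univ S, hST⟩) h
  have hgsum : ∀ z, ∑ T ∈ Q, g T z ^ 2 ≤ 1 := fun z => (hf.merge J z).parseval_le h0 h1 Q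
  have himg : ∀ T z, g' T z
      = ∑ U ∈ (fib T).image (fun S => S \ J), coef p f (U ∪ T) * chi p U z := by
    intro T z
    rw [sum_image fun S hS S' hS' h =>
      sdiff_inj_of_inter_eq ((mem_filter.1 hS).2.trans (mem_filter.1 hS').2.symm) h]
    refine sum_congr rfl fun S hS => ?_
    rw [← (mem_filter.1 hS).2, sdiff_union_inter]
  have hrev : ∀ T (φ : Finset α → ℝ → ℝ), ∑ U ∈ (fib T).image (fun S => S \ J),
      φ U (coef p f (U ∪ T)) = ∑ S ∈ fib T, φ (S \ J) (coef p f S) := by
    intro T φ
    rw [sum_image fun S hS S' hS' h =>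
      sdiff_inj_of_inter_eq ((mem_filter.1 hS).2.trans (mem_filter.1 hS').2.symm) h]
    refine sum_congr rfl fun S hS => ?_
    rw [← (mem_filter.1 hS).2, sdiff_union_inter]
  have hg2 : ∀ T, Ex p (fun z => g' T z ^ 2) = a T := by
    intro T
    simp only [himg T]
    rw [Ex_sq_sum h0 h1]
    exact hrev T fun _ c => c ^ 2
  have hB1 : 1 ≤ bon p := by linarith [bon_ge h0 h1]
  have hg4 : ∀ T, (2 * R) ^ T.card * Ex p (fun z => g' T z ^ 4) ≤ ν ^ 2 * a T := by
    intro T
    refine le_trans (mul_le_mul_of_nonneg_left ?_ (by positivity)) (hP T)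
    have hb := bonami h0 h1 univ
      (fun U => if U ∈ (fib T).image (fun S => S \ J) then coef p f (U ∪ T) else 0)
    simp only [powerset_univ, ite_mul, zero_mul, ite_pow, ne_eq, OfNat.ofNat_ne_zero,
      not_false_eq_true, zero_pow, mul_ite, mul_zero, sum_ite_mem, univ_inter, ← himg T] at hb
    refine hb.trans (pow_le_pow_left₀ (sum_nonneg fun U _ => mul_nonneg
      (pow_nonneg (by linarith) _) (sq_nonneg _)) ?_ 2)
    rw [hrev T fun U c => bon p ^ U.card * c ^ 2]
    refine sum_le_sum fun S _ => mul_le_mul_of_nonneg_right ?_ (sq_nonneg _)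
    exact pow_le_pow_right₀ hB1 (card_le_card sdiff_subset)
  -- the set of influential live coordinates
  set pz := fun e z => piv p e (fun x => f (merge J z x)) with hpz
  set Jz := fun z => J.filter (fun e => τ ≤ pz e z) with hJz
  set good := fun T z => T ⊆ Jz z ∧ ((Jz z).card : ℝ) ≤ R with hgood
  set S1 := fun z => ∑ e ∈ J, pz e z with hS1
  have hS1I : Ex p S1 ≤ totalInf p f := by
    simp only [hS1, Ex_sum, totalInf]
    have : ∀ e ∈ J, Ex p (pz e) = piv p e f := by
      intro e he
      simp only [hpz, piv]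
      rw [← Ex_merge p J (fun x => |diff e f x|)]
      refine Ex_congr fun z => Ex_congr fun x => ?_
      have : ∀ b, merge J z (Function.update x e b) = Function.update (merge J z x) e b := by
        intro b
        funext i
        by_cases hi : i = e
        · subst hi; simp [merge, he]
        · simp [merge, Function.update_of_ne hi]
      simp [diff, this]
    rw [sum_congr rfl this]
    exact sum_le_sum_of_subset_of_nonneg (subset_univ J)
      fun e _ _ => piv_nonneg h0.le h1.le e f
  have hX : ∀ z, ∑ T ∈ Q, (if good T z then 0 else g T z ^ 2)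
      ≤ (bon p ^ d * sd p ^ 2 * Real.sqrt τ + 1 / (τ * R)) * S1 z := by
    intro z
    set Low := J.filter (fun e => pz e z < τ) with hLow
    have step1 : ∀ T ∈ Q, (if good T z then 0 else g T z ^ 2)
        ≤ (∑ e ∈ Low, if e ∈ T then g T z ^ 2 else 0)
          + (Jz z).card / R * g T z ^ 2 := by
      intro T hT
      have n0 : 0 ≤ ∑ e ∈ Low, (if e ∈ T then g T z ^ 2 else 0) :=
        sum_nonneg fun e _ => by split_ifs <;> positivity
      have n1 : 0 ≤ ((Jz z).card : ℝ) / R * g T z ^ 2 := by positivity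
      split_ifs with hgd
      · linarith
      · by_cases hsub : T ⊆ Jz z
        · have : 1 ≤ ((Jz z).card : ℝ) / R := by
            rw [le_div_iff₀ hR, one_mul]
            by_contra hlt
            exact hgd ⟨hsub, (not_le.1 hlt).le⟩
          nlinarith [sq_nonneg (g T z)]
        · obtain ⟨e, heT, he⟩ := not_subset.1 hsub
          have heL : e ∈ Low := by
            have heJ := (hTJ T hT).1 heT
            simp only [hJz, mem_filter, heJ, true_and, not_le] at he
            simp [hLow, heJ, he]
          have h := single_le_sum (f := fun e => if e ∈ T then g T z ^ 2 else 0)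
            (fun e _ => by split_ifs <;> positivity) heL
          simp only [heT, if_true] at h
          linarith
    have step2 : ∑ e ∈ Low, ∑ T ∈ Q, (if e ∈ T then g T z ^ 2 else 0)
        ≤ bon p ^ d * sd p ^ 2 * Real.sqrt τ * S1 z := by
      rw [hS1, mul_sum]
      refine le_trans ?_ (sum_le_sum_of_subset_of_nonneg (filter_subset (fun e => pz e z < τ) J)
        fun e _ _ => mul_nonneg (by have := pow_nonneg (le_trans zero_le_one hB1) d; positivity)
          (piv_nonneg h0.le h1.le _ _))
      refine sum_le_sum fun e he => ?_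
      rw [← sum_filter]
      refine le_trans (sum_le_sum_of_subset_of_nonneg (fun T hT => ?_)
        fun _ _ _ => sq_nonneg _) ((lowW_le (hf.merge J z) h0 h1 d e).trans ?_)
      · exact mem_filter.2 ⟨mem_univ T, (mem_filter.1 hT).2,
          (hTJ T (mem_filter.1 hT).1).2.2⟩
      · have hp' := piv_nonneg h0.le h1.le e (fun x => f (merge J z x))
        have hsq := Real.sqrt_le_sqrt (mem_filter.1 he).2.le
        have : 0 ≤ bon p ^ d := pow_nonneg (by linarith) _
        calc sd p ^ 2 * bon p ^ d * (pz e z * Real.sqrt (pz e z))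
            ≤ sd p ^ 2 * bon p ^ d * (pz e z * Real.sqrt τ) := by gcongr
          _ = _ := by ring
    have step3 : ((Jz z).card : ℝ) * τ ≤ S1 z := by
      calc ((Jz z).card : ℝ) * τ ≤ ∑ e ∈ Jz z, pz e z := by
            rw [← nsmul_eq_mul]
            exact card_nsmul_le_sum _ _ _ fun e he => (mem_filter.1 he).2
        _ ≤ _ := sum_le_sum_of_subset_of_nonneg (filter_subset _ J)
            fun e _ _ => piv_nonneg h0.le h1.le _ _
    calc ∑ T ∈ Q, (if good T z then 0 else g T z ^ 2)
        ≤ ∑ T ∈ Q, ((∑ e ∈ Low, if e ∈ T then g T z ^ 2 else 0)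
            + (Jz z).card / R * g T z ^ 2) := sum_le_sum step1
      _ = (∑ e ∈ Low, ∑ T ∈ Q, if e ∈ T then g T z ^ 2 else 0)
            + (Jz z).card / R * ∑ T ∈ Q, g T z ^ 2 := by
          rw [sum_add_distrib, sum_comm, mul_sum]
      _ ≤ bon p ^ d * sd p ^ 2 * Real.sqrt τ * S1 z + 1 / (τ * R) * S1 z := by
          refine add_le_add step2 ?_
          calc ((Jz z).card : ℝ) / R * ∑ T ∈ Q, g T z ^ 2 ≤ (Jz z).card / R * 1 :=
                mul_le_mul_of_nonneg_left (hgsum z) (by positivity)
            _ ≤ _ := by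
                rw [mul_one, one_div_mul_eq_div, div_le_div_iff₀ hR (by positivity)]
                nlinarith
      _ = _ := by ring
  have hY : ∀ z, ∑ T ∈ Q, (if good T z then g' T z ^ 2 else 0)
      ≤ (∑ T ∈ Q, (2 * R) ^ T.card * g' T z ^ 4 / (2 * ν)) + ν := by
    intro z
    have step1 : ∀ T ∈ Q, (if good T z then g' T z ^ 2 else 0)
        ≤ (2 * R) ^ T.card * g' T z ^ 4 / (2 * ν)
          + ν / 2 * (if good T z then (1 / (2 * R)) ^ T.card else 0) := by
      intro T _
      split_ifs
      · have hw : 0 < (2 * R) ^ T.card := by positivity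
        rw [one_div_pow]
        field_simp
        nlinarith [sq_nonneg ((2 * R) ^ T.card * g' T z ^ 2 - ν)]
      · rw [mul_zero, add_zero]
        positivity
    refine (sum_le_sum step1).trans ?_
    rw [sum_add_distrib, ← mul_sum]
    refine add_le_add le_rfl ?_
    have h2 : ∑ T ∈ Q, (if good T z then (1 / (2 * R)) ^ T.card else 0) ≤ 2 := by
      by_cases hc : ((Jz z).card : ℝ) ≤ R
      · calc ∑ T ∈ Q, (if good T z then (1 / (2 * R)) ^ T.card else 0)
            ≤ ∑ T ∈ (Jz z).powerset, (1 / (2 * R)) ^ T.card := by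
              rw [← sum_filter]
              refine sum_le_sum_of_subset_of_nonneg (fun T hT => ?_)
                fun _ _ _ => by positivity
              exact mem_powerset.2 (mem_filter.1 hT).2.1
          _ = (1 / (2 * R) + 1) ^ (Jz z).card := by
              rw [← sum_pow_mul_eq_add_pow]
              simp
          _ ≤ Real.exp (1 / (2 * R)) ^ (Jz z).card :=
              pow_le_pow_left₀ (by positivity) (Real.add_one_le_exp _) _
          _ ≤ Real.exp (1 / 2) := by
              rw [← Real.exp_nat_mul]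
              refine Real.exp_le_exp.2 ?_
              rw [mul_one_div, div_le_div_iff₀ (by positivity) two_pos]
              linarith
          _ ≤ 2 := by
              have h := Real.exp_one_lt_d9
              have hs : Real.exp (1 / 2) * Real.exp (1 / 2) = Real.exp 1 := by
                rw [← Real.exp_add]; norm_num
              nlinarith [Real.exp_pos (1 / 2 : ℝ)]
      · rw [sum_eq_zero fun T _ => if_neg fun hgd => hc hgd.2]
        norm_num
    nlinarith
  have main : M ≤ θ / 2 * 1 + θ / 2 * M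
      + ((bon p ^ d * sd p ^ 2 * Real.sqrt τ + 1 / (τ * R)) * totalInf p f
        + (∑ T ∈ Q, ν ^ 2 * a T / (2 * ν) + ν)) / (2 * θ) := by
    have hpt : ∀ z, ∑ T ∈ Q, g T z * g' T z
        ≤ θ / 2 * 1 + θ / 2 * ∑ T ∈ Q, g' T z ^ 2
          + ((bon p ^ d * sd p ^ 2 * Real.sqrt τ + 1 / (τ * R)) * S1 z
            + (∑ T ∈ Q, (2 * R) ^ T.card * g' T z ^ 4 / (2 * ν) + ν)) / (2 * θ) := by
      intro z
      refine (sum_le_sum fun T _ => mul_split (good T z) hθ (g T z) (g' T z)).trans ?_
      rw [sum_add_distrib, sum_add_distrib, ← sum_div, sum_add_distrib, ← mul_sum, ← mul_sum]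
      have hx := hX z
      have hy := hY z
      have hs := hgsum z
      gcongr
    calc M = Ex p (fun z => ∑ T ∈ Q, g T z * g' T z) := by
          rw [hMa, Ex_sum]; exact sum_congr rfl fun T _ => (hgg T).symm
      _ ≤ _ := (Ex_mono h0.le h1.le hpt).trans (by
          simp only [div_eq_mul_inv _ (2 * θ), Ex_add, Ex_mul_const, Ex_const_mul, Ex_const,
            Ex_sum, hg2, ← hMa]
          have hc : 0 ≤ bon p ^ d * sd p ^ 2 * Real.sqrt τ + 1 / (τ * R) := by
            have : 0 ≤ bon p ^ d := pow_nonneg (by linarith) _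
            positivity
          have := mul_le_mul_of_nonneg_left hS1I hc
          gcongr
          simp only [div_eq_mul_inv, Ex_mul_const, Ex_const_mul]
          exact mul_le_mul_of_nonneg_right (hg4 _) (by positivity))
  have hsumY : ∑ T ∈ Q, ν ^ 2 * a T / (2 * ν) = ν / 2 * M := by
    rw [hMa, mul_sum]
    exact sum_congr rfl fun T _ => by field_simp
  rw [hsumY] at main
  have hI := totalInf_nonneg h0.le h1.le f
  set X := bon p ^ d * sd p ^ 2 * Real.sqrt τ * totalInf p f + totalInf p f / (τ * R) with hXd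
  have hX0 : 0 ≤ X := by
    have : 0 ≤ bon p ^ d := pow_nonneg (by linarith) _
    positivity
  have e : (bon p ^ d * sd p ^ 2 * Real.sqrt τ + 1 / (τ * R)) * totalInf p f = X := by
    rw [hXd]; ring
  rw [e] at main
  have hYb : X + (ν / 2 * M + ν) ≤ X + 2 * ν := by nlinarith
  have : (X + (ν / 2 * M + ν)) / (2 * θ) ≤ (X + 2 * ν) / θ := by
    rw [div_le_div_iff₀ (by positivity) hθ]
    nlinarith
  nlinarith

/-- Low-degree weight is small if every influence is small. -/
lemma low_mass {f : (α → Bool) → ℝ} (hf : IsBit f) (h0 : 0 < p) (h1 : p < 1) (d : ℕ) :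
    ∑ S ∈ univ.filter (fun S : Finset α => S.Nonempty ∧ S.card ≤ d), coef p f S ^ 2
      ≤ sd p ^ 2 * bon p ^ d * ∑ e, piv p e f * Real.sqrt (piv p e f) := by
  rw [mul_sum]
  refine le_trans ?_ (sum_le_sum fun e _ => lowW_le hf h0 h1 d e)
  simp only [lowW, sum_filter]
  conv_rhs => rw [sum_comm]
  refine sum_le_sum fun S _ => ?_
  split_ifs with hS
  · obtain ⟨⟨e, he⟩, hd⟩ := hS
    have h := single_le_sum
      (f := fun e' => if e' ∈ S ∧ S.card ≤ d then coef p f S ^ 2 else 0)
      (fun e' _ => by split_ifs <;> positivity) (mem_univ e)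
    simpa [he, hd] using h
  · exact sum_nonneg fun e _ => by split_ifs <;> positivity

end Vale.Agent.P063
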