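import Vale.Agent.P063.Sym

/-! Lower bound on the total influence of a symmetric Boolean function of hypergraphs. -/

set_option linter.unusedSectionVars false

namespace Vale.Agent.P063

open Finset

variable {n r : ℕ}

lemma sum_sq_weighted_le {ι : Type*} (s : Finset ι) (c B : ι → ℝ) {w ν : ℝ} (hw : 0 ≤ w)
    (h : ∀ i ∈ s, w * B i ^ 2 * ∑ j ∈ s, c j ^ 2 ≤ ν ^ 2) :
    w * (∑ i ∈ s, B i * c i ^ 2) ^ 2 ≤ ν ^ 2 * ∑ i ∈ s, c i ^ 2 := by
  have cs := sum_mul_sq_le_sq_mul_sq s c (fun i => B i * c i)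
  have e : ∑ i ∈ s, c i * (B i * c i) = ∑ i ∈ s, B i * c i ^ 2 :=
    sum_congr rfl fun i _ => by ring
  rw [e] at cs
  refine (mul_le_mul_of_nonneg_left cs hw).trans ?_
  rw [mul_sum, mul_sum, mul_sum]
  refine sum_le_sum fun i hi => ?_
  have := mul_le_mul_of_nonneg_right (h i hi) (sq_nonneg (c i))
  linarith [show w * ((∑ j ∈ s, c j ^ 2) * (B i * c i) ^ 2)
    = w * B i ^ 2 * (∑ j ∈ s, c j ^ 2) * c i ^ 2 by ring]

/-- Middle-level weight is controlled by averaging the restriction inequality. -/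
lemma mid_avg {f : (Edge n r → Bool) → ℝ} (hf : IsBit f) {p : ℝ} (h0 : 0 < p) (h1 : p < 1)
    {δ γ R τ ν θ β : ℝ} (hδ : 0 < δ) (hδ1 : δ ≤ 1) (hγ : 0 < γ) (hR : 0 < R) (hτ : 0 < τ)
    (hν : 0 < ν) (hθ : 0 < θ) (hβ0 : 0 ≤ β) (Mid : Finset (Finset (Edge n r))) (d m : ℕ)
    (hq : ∀ S ∈ Mid, 0 < S.card ∧ S.card ≤ m
      ∧ ((r : ℝ) * S.card * δ) ^ r ≤ (S.card : ℝ) / 2 ∧ 16 / (δ * S.card) + γ ≤ β)
    (hgood : ∀ S ∈ Mid, ∀ T : Finset (Edge n r), δ * S.card / 8 ≤ ((vset T).card : ℝ) →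
      (T.card : ℝ) ≤ δ * S.card / γ → T.card ≤ d
        ∧ (2 * R) ^ T.card * (bon p ^ S.card) ^ 2 * upW p f m T ≤ ν ^ 2) :
    ∑ S ∈ Mid, coef p f S ^ 2
      ≤ θ + (bon p ^ d * sd p ^ 2 * Real.sqrt τ * totalInf p f
        + totalInf p f / (τ * R) + 2 * ν) / θ + β := by
  classical
  set bad := fun (S : Finset (Edge n r)) (x : Edge n r → Bool) =>
    ((vset (S ∩ live x)).card : ℝ) < δ * S.card / 8
      ∨ δ * S.card / γ < ((S ∩ live x).card : ℝ) with hbad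
  set C := θ + (bon p ^ d * sd p ^ 2 * Real.sqrt τ * totalInf p f
        + totalInf p f / (τ * R) + 2 * ν) / θ with hC
  have hfix : ∀ x, ∑ S ∈ Mid.filter (fun S => ¬ bad S x), coef p f S ^ 2 ≤ C := by
    intro x
    set P := Mid.filter (fun S => ¬ bad S x) with hPdef
    have hmem : ∀ S ∈ P, S ∈ Mid ∧ δ * S.card / 8 ≤ ((vset (S ∩ live x)).card : ℝ)
        ∧ ((S ∩ live x).card : ℝ) ≤ δ * S.card / γ := by
      intro S hS
      obtain ⟨h1, h2⟩ := mem_filter.1 hS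
      simp only [hbad, not_or, not_lt] at h2
      exact ⟨h1, h2.1, h2.2⟩
    refine master hf h0 h1 (live x) P d hR hτ hν hθ (fun S hS => ?_) (fun T => ?_)
    · obtain ⟨hM, hv, ht⟩ := hmem S hS
      refine ⟨?_, (hgood S hM _ hv ht).1⟩
      rw [Nat.one_le_iff_ne_zero]
      intro h
      rw [card_eq_zero.1 h] at hv
      have := (hq S hM).1
      have : 0 < δ * S.card / 8 := by positivity
      simp [vset] at hv
      linarith
    · refine sum_sq_weighted_le _ (coef p f) (fun S => bon p ^ S.card) (by positivity)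
        fun S hS => ?_
      obtain ⟨hSP, rfl⟩ := mem_filter.1 hS
      obtain ⟨hM, hv, ht⟩ := hmem S hSP
      refine le_trans (mul_le_mul_of_nonneg_left ?_ (by positivity)) (hgood S hM _ hv ht).2
      refine sum_le_sum_of_subset_of_nonneg (fun S' hS' => ?_) fun _ _ _ => sq_nonneg _
      obtain ⟨hS'P, hS'T⟩ := mem_filter.1 hS'
      exact mem_filter.2 ⟨mem_univ _, hS'T ▸ inter_subset_left, (hq S' (hmem S' hS'P).1).2.1⟩
  have hdec : ∑ S ∈ Mid, coef p f S ^ 2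
      = Ex δ (fun x => (∑ S ∈ Mid.filter (fun S => ¬ bad S x), coef p f S ^ 2)
        + ∑ S ∈ Mid, coef p f S ^ 2 * (if bad S x then (1 : ℝ) else 0)) := by
    conv_lhs => rw [← Ex_const (α := Edge n r) δ (∑ S ∈ Mid, coef p f S ^ 2)]
    refine Ex_congr fun x => ?_
    rw [sum_filter, ← sum_add_distrib]
    exact sum_congr rfl fun S _ => by split_ifs <;> simp
  rw [hdec, Ex_add]
  refine add_le_add ((Ex_mono hδ.le hδ1 hfix).trans_eq (Ex_const δ C)) ?_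
  rw [Ex_sum]
  calc ∑ S ∈ Mid, Ex δ (fun x => coef p f S ^ 2 * (if bad S x then (1 : ℝ) else 0))
      ≤ ∑ S ∈ Mid, coef p f S ^ 2 * β := by
        refine sum_le_sum fun S hS => ?_
        rw [Ex_const_mul]
        obtain ⟨hq0, -, hhigh, hb⟩ := hq S hS
        exact mul_le_mul_of_nonneg_left ((coverage hδ hδ1 hγ S hq0 hhigh).trans hb) (sq_nonneg _)
    _ ≤ β := by
        rw [← sum_mul]
        exact mul_le_of_le_one_left hβ0 (hf.parseval_le h0 h1 Mid)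

/-- Eventually `C L^k exp(-cL)` is small. -/
lemma eventually_small (k : ℕ) (C : ℝ) {c ε : ℝ} (hc : 0 < c) (hε : 0 < ε) :
    ∀ᶠ L : ℝ in Filter.atTop, C * L ^ k * Real.exp (-(c * L)) ≤ ε := by
  have h := ((isLittleO_pow_exp_pos_mul_atTop k hc).tendsto_div_nhds_zero).const_mul C
  rw [mul_zero] at h
  filter_upwards [h.eventually (ge_mem_nhds hε)] with L hL
  rw [Real.exp_neg]
  refine le_trans (le_of_eq ?_) hL
  field_simp

lemma choose_lb : ∀ n r : ℕ, 1 ≤ r → r ≤ n → n - r + 1 ≤ n.choose r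
  | 0, r, h1, h2 => by omega
  | n + 1, r, h1, h2 => by
      obtain ⟨s, rfl⟩ : ∃ s, r = s + 1 := ⟨r - 1, by omega⟩
      rcases Nat.eq_or_lt_of_le h2 with h | h
      · rw [h]; simp
      · have := choose_lb n (s + 1) (by omega) (by omega)
        rw [Nat.choose_succ_succ']
        have := Nat.choose_pos (show s ≤ n by omega)
        omega

/-- The constants depending on the uniformity and the allowed error. -/
structure Params (r : ℕ) (γ A α η κ : ℝ) : Prop where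
  hr : 2 ≤ r
  hγ : 0 < γ
  hγ8 : γ ≤ 1 / 8
  hA : A = 128 / γ
  hα : α = γ / 100
  hη : 0 < η
  hη1 : η ≤ 1
  hηA : η * (2 * ((r : ℝ) * A) ^ r) ≤ γ
  hηd : η * (8 * A) ≤ γ ^ 2 * α
  hκ : 0 < κ
  hκα : κ ≤ α / 4
  hκA : κ * (2 * A) ≤ 1
  hκ16 : κ ≤ 1 / 16

/-- Conditions saying that the number of vertices is large and the bias is not too extreme. -/
structure Scale (r n : ℕ) (p γ α κ L l Λ : ℝ) : Prop where
  h0 : 0 < p
  h1 : p < 1
  hexpL : Real.exp L = n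
  hnpos : (0 : ℝ) < n
  hs2 : Real.exp (-(κ * L)) ≤ sd p ^ 2
  hl : l = Real.log (bon p)
  hl1 : 1 ≤ l
  hlκ : l ≤ κ * L
  hΛl : Λ * l = L
  hΛL : Λ ≤ L
  hΛκ : 1 ≤ Λ * κ
  hΛ0 : 0 < Λ
  hΛ1 : 1 ≤ Λ
  hL1 : 1 ≤ L
  hn2r : 2 * (r : ℝ) * L ≤ n
  hLb : 2 * (r : ℝ) * L ^ 2 / γ * Real.exp (-(1 / 2 * L)) ≤ 1
  hLlow : 2 * L ^ 3 * Real.exp (-(1 / 4 * L)) ≤ γ
  hLX1 : 1 * L ^ 2 * Real.exp (-(α / 8 * L)) ≤ γ ^ 2 / 4
  hLX2 : 2 * L ^ 2 * Real.exp (-(α / 4 * L)) ≤ γ ^ 2 / 4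
  hLν : Real.exp (-(1 / 4 * L)) ≤ γ ^ 2 / 4

lemma Scale.bon_pow {γ α κ p L l Λ : ℝ} (hS : Scale r n p γ α κ L l Λ) (k : ℕ) :
    bon p ^ k = Real.exp (k * l) := by
  have hB := bon_ge hS.h0 hS.h1
  rw [hS.hl, Real.exp_nat_mul, Real.exp_log (by linarith)]

section

variable {γ A α η κ p L l Λ ρ : ℝ}

/-- Few edges lie among the high-degree vertices. -/
lemma high_le (P : Params r γ A α η κ) (hρ : ρ = (r : ℝ) / ((r : ℝ) - 1)) (hΛ0 : 0 < Λ)
    {q : ℝ} (hq0 : 0 ≤ q) (hhi : q ≤ η * Λ ^ ρ / γ) :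
    ((r : ℝ) * q * (A / Λ)) ^ r ≤ q / 2 := by
  obtain ⟨hr, hγ, hγ8, hA, -, hη, -, hηA, -, -, -, -, -⟩ := P
  have hA0 : 0 < A := by rw [hA]; positivity
  obtain ⟨s, rfl⟩ : ∃ s, r = s + 1 := ⟨r - 1, by omega⟩
  push_cast at hρ hηA ⊢
  have hs1 : s ≠ 0 := by omega
  have hpow : (Λ ^ ρ) ^ s = Λ ^ (s + 1) := by
    rw [← Real.rpow_natCast, ← Real.rpow_mul hΛ0.le, ← Real.rpow_natCast Λ (s + 1)]
    congr 1
    rw [hρ]
    have : (0 : ℝ) < s := by exact_mod_cast Nat.pos_of_ne_zero hs1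
    push_cast
    rw [add_sub_cancel_right, div_mul_cancel₀ _ this.ne']
  have hratio : η / γ ≤ 1 := by
    rw [div_le_one hγ]
    have : (1 : ℝ) ≤ ((s : ℝ) + 1) * A := by
      have : 1 ≤ A := by rw [hA, one_le_div hγ]; linarith
      nlinarith
    nlinarith [one_le_pow₀ (n := s + 1) this]
  calc (((s : ℝ) + 1) * q * (A / Λ)) ^ (s + 1)
      = q * (q ^ s * (((s : ℝ) + 1) * (A / Λ)) ^ (s + 1)) := by
        rw [show ((s : ℝ) + 1) * q * (A / Λ) = q * (((s : ℝ) + 1) * (A / Λ)) by ring, mul_pow,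
          pow_succ q s]
        ring
    _ ≤ q * ((η * Λ ^ ρ / γ) ^ s * (((s : ℝ) + 1) * (A / Λ)) ^ (s + 1)) := by gcongr
    _ = q * ((η / γ) ^ s * (((s : ℝ) + 1) * A) ^ (s + 1)) := by
        rw [mul_div_right_comm, mul_pow (η / γ), hpow, ← mul_div_assoc, div_pow _ Λ]
        field_simp
    _ ≤ q * (η / γ * (((s : ℝ) + 1) * A) ^ (s + 1)) := by
        gcongr
        exact pow_le_of_le_one (by positivity) hratio hs1
    _ ≤ q / 2 := by
        rw [div_mul_eq_mul_div]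
        have : η * (((s : ℝ) + 1) * A) ^ (s + 1) / γ ≤ 1 / 2 := by
          rw [div_le_iff₀ hγ]; linarith
        nlinarith

/-- Symmetry bound in exponential form. -/
lemma upW_exp_le {f : (Edge n r → Bool) → ℝ} (hf : IsBit f) (hinv : IsInv f) (hγ : 0 < γ)
    (S : Scale r n p γ α κ L l Λ) {m : ℕ} (hm : (m : ℝ) ≤ L ^ 2 / γ) (T : Finset (Edge n r))
    (hvn : ((vset T).card : ℝ) ≤ n / 2) :
    upW p f m T ≤ Real.exp (-(1 / 2 * L)) ^ (vset T).card := by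
  obtain ⟨h0, h1, hexpL, hnpos, -, -, -, -, -, -, -, -, -, -, -, hLb, -, -, -, -⟩ := S
  have hvn' : (vset T).card ≤ n := by
    exact_mod_cast (show ((vset T).card : ℝ) ≤ n by linarith)
  have h := upW_le hf hinv h0 h1 m T
  have hden : (n : ℝ) / 2 ≤ ((n + 1 - (vset T).card : ℕ) : ℝ) := by
    push_cast [Nat.cast_sub (show (vset T).card ≤ n + 1 by omega)]
    linarith
  have hnum : ((r * m : ℕ) : ℝ) ≤ Real.exp (-(1 / 2 * L)) * ((n : ℝ) / 2) := by
    rw [Real.exp_neg, ← div_eq_inv_mul, le_div_iff₀ (Real.exp_pos _)]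
    rw [Real.exp_neg, ← div_eq_mul_inv, div_le_one (Real.exp_pos _),
      div_le_iff₀ hγ] at hLb
    push_cast
    rw [le_div_iff₀ hγ] at hm
    have hsq : Real.exp (1 / 2 * L) * Real.exp (1 / 2 * L) = n := by
      rw [← Real.exp_add, ← hexpL]; ring_nf
    have e1 : (r : ℝ) * m * γ ≤ r * L ^ 2 := by
      rw [mul_assoc]; exact mul_le_mul_of_nonneg_left hm (by positivity)
    have e2 : (r : ℝ) * m * 2 ≤ Real.exp (1 / 2 * L) := by nlinarith
    nlinarith [mul_le_mul_of_nonneg_right e2 (Real.exp_pos (1 / 2 * L)).le]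
  refine le_of_mul_le_mul_right ?_
    (pow_pos (lt_of_lt_of_le (by positivity) hden) (vset T).card)
  refine h.trans ?_
  rw [← mul_pow]
  refine pow_le_pow_left₀ (Nat.cast_nonneg _) (hnum.trans ?_) _
  exact mul_le_mul_of_nonneg_left hden (Real.exp_pos _).le

/-- The orbit gain beats the other losses. -/
lemma exponent_le (P : Params r γ A α η κ) (hL : 0 ≤ L) (hΛ0 : 0 < Λ) (hl0 : 0 ≤ l)
    (hΛl : Λ * l = L) {q t v : ℝ} (hlo : Λ / 8 < q) (ht : t ≤ A / Λ * q / γ)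
    (hv : A / Λ * q / 8 ≤ v) :
    t * (α * L) + 2 * (q * l) + v * -(1 / 2 * L) ≤ 2 * -(1 / 4 * L) := by
  obtain ⟨-, hγ, hγ8, hA, hα, -, -, -, -, -, -, -, -⟩ := P
  have hA0 : 0 < A := by rw [hA]; positivity
  have hα0 : 0 < α := by rw [hα]; positivity
  have hq0 : 0 < q := lt_trans (by positivity) hlo
  set δ := A / Λ with hδ
  have hq' : δ * q * L = A * (q * l) := by
    rw [hδ, ← hΛl]
    field_simp
  have hdq : 128 ≤ δ * q := by
    calc (128 : ℝ) ≤ A / 8 := by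
          rw [hA, div_div, le_div_iff₀ (by positivity)]; linarith
      _ = A / Λ * (Λ / 8) := by field_simp
      _ ≤ _ := mul_le_mul_of_nonneg_left hlo.le (by positivity)
  have c1 : t * (α * L) ≤ δ * q * L / 100 := by
    calc t * (α * L) ≤ δ * q / γ * (α * L) := mul_le_mul_of_nonneg_right ht (by positivity)
      _ = _ := by rw [hα]; field_simp
  have c2 : 2 * (q * l) ≤ δ * q * L / 512 := by
    rw [hq']
    have : 1024 ≤ A := by rw [hA, le_div_iff₀ hγ]; linarith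
    have := mul_le_mul_of_nonneg_right this (show 0 ≤ q * l by positivity)
    linarith
  have c3 : δ * q * L / 16 ≤ v * (1 / 2 * L) := by
    have := mul_le_mul_of_nonneg_right hv (show (0 : ℝ) ≤ 1 / 2 * L by positivity)
    linarith
  have c4 : 128 * L ≤ δ * q * L := mul_le_mul_of_nonneg_right hdq hL
  linarith

/-- The lowest levels carry little weight. -/
lemma low_levels {f : (Edge n r → Bool) → ℝ} (hf : IsBit f) (hinv : IsInv f)
    (P : Params r γ A α η κ) (S : Scale r n p γ α κ L l Λ)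
    (hKL : sd p ^ 2 * totalInf p f ≤ L ^ 2) (hIK : totalInf p f ≤ L ^ 2 * Real.exp (κ * L)) :
    ∑ S ∈ univ.filter (fun S : Finset (Edge n r) => S.Nonempty ∧ S.card ≤ ⌊Λ / 8⌋₊),
      coef p f S ^ 2 ≤ γ := by
  have hBexp := S.bon_pow
  obtain ⟨hr, hγ, hγ8, -, -, -, -, -, -, hκ, -, -, hκ16⟩ := P
  obtain ⟨h0, h1, hexpL, hnpos, -, -, hl1, -, hΛl, -, -, hΛ0, -, hL1, hn2r, -, hLlow, -, -, -⟩ := S
  have hr' : (2 : ℝ) ≤ r := by exact_mod_cast hr
  have hI0 := totalInf_nonneg h0.le h1.le f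
  have hs := sd_pos h0 h1
  have hN : (n : ℝ) / 2 ≤ (Fintype.card (Edge n r) : ℝ) := by
    rw [Fintype.card_finset_len, Fintype.card_fin]
    have hrn : r ≤ n := by
      have : (r : ℝ) ≤ n := by nlinarith
      exact_mod_cast this
    have := choose_lb n r (by omega) hrn
    have h' : ((n - r + 1 : ℕ) : ℝ) ≤ (n.choose r : ℝ) := by exact_mod_cast this
    push_cast [Nat.cast_sub hrn] at h'
    nlinarith
  have hpiv : ∀ e, piv p e f ≤ 2 * L ^ 2 * Real.exp ((κ - 1) * L) := by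
    intro e
    have h : (Fintype.card (Edge n r) : ℝ) * piv p e f = totalInf p f := by
      rw [totalInf, sum_congr rfl fun e' _ => piv_eq hinv p e' e, sum_const, card_univ,
        nsmul_eq_mul]
    have h2 := mul_le_mul_of_nonneg_right hN (piv_nonneg h0.le h1.le e f)
    rw [h] at h2
    rw [sub_mul, one_mul, Real.exp_sub, hexpL, ← mul_div_assoc, le_div_iff₀ hnpos]
    linarith
  have hsq : ∀ e, Real.sqrt (piv p e f) ≤ 2 * L * Real.exp ((κ - 1) / 2 * L) := by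
    intro e
    rw [Real.sqrt_le_iff]
    refine ⟨by positivity, (hpiv e).trans ?_⟩
    rw [mul_pow, mul_pow, ← Real.exp_nat_mul,
      show ((2 : ℕ) : ℝ) * ((κ - 1) / 2 * L) = (κ - 1) * L by push_cast; ring]
    gcongr
    norm_num
  refine (low_mass hf h0 h1 _).trans ?_
  have hBd1 : bon p ^ ⌊Λ / 8⌋₊ ≤ Real.exp (1 / 8 * L) := by
    rw [hBexp, Real.exp_le_exp]
    calc (⌊Λ / 8⌋₊ : ℝ) * l ≤ Λ / 8 * l :=
          mul_le_mul_of_nonneg_right (Nat.floor_le (by positivity)) (by linarith)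
      _ = 1 / 8 * L := by rw [div_mul_eq_mul_div, hΛl]; ring
  have hpivnn := fun e => piv_nonneg h0.le h1.le e f
  calc sd p ^ 2 * bon p ^ ⌊Λ / 8⌋₊ * ∑ e, piv p e f * Real.sqrt (piv p e f)
      ≤ sd p ^ 2 * Real.exp (1 / 8 * L)
          * (totalInf p f * (2 * L * Real.exp ((κ - 1) / 2 * L))) := by
        rw [totalInf, sum_mul]
        gcongr with e
        · exact sum_nonneg fun e _ => mul_nonneg (hpivnn e) (Real.sqrt_nonneg _)
        · exact hpivnn e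
        · exact hsq e
    _ = (sd p ^ 2 * totalInf p f) * (2 * L * (Real.exp (1 / 8 * L) * Real.exp ((κ - 1) / 2 * L))) := by ring
    _ ≤ L ^ 2 * (2 * L * Real.exp (-(1 / 4 * L))) := by
        rw [← Real.exp_add]
        gcongr
        nlinarith
    _ ≤ γ := by linarith [hLlow]

/-- The losses in the restriction inequality are absorbed. -/
lemma loss_le {f : (Edge n r → Bool) → ℝ} (hf : IsBit f) (hinv : IsInv f)
    (P : Params r γ A α η κ) (S : Scale r n p γ α κ L l Λ) {q m : ℕ} (T : Finset (Edge n r))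
    (hm : (m : ℝ) ≤ L ^ 2 / γ) (hlo : Λ / 8 < q) (ht : (T.card : ℝ) ≤ A / Λ * q / γ)
    (hv : A / Λ * q / 8 ≤ ((vset T).card : ℝ)) (htL : (T.card : ℝ) ≤ L) :
    (2 * (Real.exp (α * L) / 2)) ^ T.card * (bon p ^ q) ^ 2 * upW p f m T
      ≤ Real.exp (-(1 / 4 * L)) ^ 2 := by
  have hB0 : 0 < bon p := by linarith [bon_ge S.h0 S.h1]
  have hexpo := exponent_le P (by linarith [S.hL1]) S.hΛ0 (by linarith [S.hl1]) S.hΛl hlo ht hv
  have hvn : ((vset T).card : ℝ) ≤ n / 2 := by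
    have : ((vset T).card : ℝ) ≤ r * T.card := by exact_mod_cast vset_card_le T
    have := mul_le_mul_of_nonneg_left htL (Nat.cast_nonneg' r : (0 : ℝ) ≤ r)
    linarith [S.hn2r]
  refine (mul_le_mul_of_nonneg_left (upW_exp_le hf hinv P.hγ S hm T hvn) (by positivity)).trans ?_
  rw [mul_div_cancel₀ _ (two_ne_zero' ℝ), S.bon_pow, ← Real.exp_nat_mul, ← Real.exp_nat_mul,
    ← Real.exp_nat_mul, ← Real.exp_nat_mul, ← Real.exp_add, ← Real.exp_add, Real.exp_le_exp]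
  push_cast
  exact hexpo

lemma mid_size (P : Params r γ A α η κ) (hρ : ρ = (r : ℝ) / ((r : ℝ) - 1)) (hΛ0 : 0 < Λ)
    {q : ℕ} (hlo : Λ / 8 < q) (hhi : (q : ℝ) ≤ η * Λ ^ ρ / γ) :
    0 < q ∧ q ≤ ⌊η * Λ ^ ρ / γ⌋₊ ∧ ((r : ℝ) * q * (A / Λ)) ^ r ≤ (q : ℝ) / 2
      ∧ 16 / (A / Λ * q) + γ ≤ 2 * γ := by
  have hqpos : (0 : ℝ) < q := lt_trans (by positivity) hlo
  refine ⟨Nat.cast_pos.1 hqpos, Nat.le_floor hhi, high_le P hρ hΛ0 hqpos.le hhi, ?_⟩
  have hγ := P.hγ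
  have hA := P.hA
  have hA0 : 0 < A := by rw [hA]; positivity
  have h : 16 / γ ≤ A / Λ * q := by
    calc 16 / γ = A / Λ * (Λ / 8) := by rw [hA]; field_simp; ring
      _ ≤ _ := mul_le_mul_of_nonneg_left hlo.le (by positivity)
  have h' := (div_le_iff₀ hγ).1 h
  have : 16 / (A / Λ * q) ≤ γ := by
    rw [div_le_iff₀ (by positivity)]; linarith
  linarith

lemma mid_count (P : Params r γ A α η κ) (hΛ0 : 0 < Λ) (hΛL : Λ ≤ L)
    (hρ2 : Λ ^ ρ ≤ Λ ^ 2) {q t : ℕ} (hhi : (q : ℝ) ≤ η * Λ ^ ρ / γ)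
    (ht : (t : ℝ) ≤ A / Λ * q / γ) :
    t ≤ ⌊A * η * Λ / γ ^ 2⌋₊ ∧ (t : ℝ) ≤ L := by
  obtain ⟨hr, hγ, hγ8, hA, hαdef, hη, -, -, hηd, -, -, -, -⟩ := P
  have hA0 : 0 < A := by rw [hA]; positivity
  have htd : (t : ℝ) ≤ A * η * Λ / γ ^ 2 := by
    calc (t : ℝ) ≤ A / Λ * (η * Λ ^ ρ / γ) / γ := ht.trans (by gcongr)
      _ = A * η * Λ ^ ρ / (Λ * γ ^ 2) := by field_simp
      _ ≤ A * η * Λ ^ 2 / (Λ * γ ^ 2) := by gcongr
      _ = _ := by field_simp
  refine ⟨Nat.le_floor htd, htd.trans (le_trans ?_ hΛL)⟩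
  rw [div_le_iff₀ (by positivity)]
  have : γ ^ 2 * α ≤ γ ^ 2 * 1 := by
    gcongr
    linarith
  nlinarith [mul_le_mul_of_nonneg_right (hηd.trans this) hΛ0.le]

lemma rest_small {X I : ℝ} (P : Params r γ A α η κ) (S : Scale r n p γ α κ L l Λ)
    (hX : X ≤ Real.exp (α / 8 * L)) (hI0 : 0 ≤ I) (hKL : sd p ^ 2 * I ≤ L ^ 2)
    (hIK : I ≤ L ^ 2 * Real.exp (κ * L)) :
    γ + (X * sd p ^ 2 * Real.sqrt (Real.exp (-(α / 2 * L))) * I
        + I / (Real.exp (-(α / 2 * L)) * (Real.exp (α * L) / 2))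
        + 2 * Real.exp (-(1 / 4 * L))) / γ + 2 * γ ≤ 4 * γ := by
  have hγ := P.hγ
  have hκα := P.hκα
  obtain ⟨h0, h1, -, -, -, -, -, -, -, -, -, -, -, hL1, -, -, -, hLX1, hLX2, hLν⟩ := S
  have hs := sd_pos h0 h1
  have hx1 : X * sd p ^ 2 * Real.sqrt (Real.exp (-(α / 2 * L))) * I
      ≤ γ ^ 2 / 4 := by
    rw [← Real.exp_half, show -(α / 2 * L) / 2 = -(α / 4 * L) by ring]
    calc X * sd p ^ 2 * Real.exp (-(α / 4 * L)) * I
        = X * Real.exp (-(α / 4 * L)) * (sd p ^ 2 * I) := by ring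
      _ ≤ Real.exp (α / 8 * L) * Real.exp (-(α / 4 * L)) * L ^ 2 := by gcongr
      _ = 1 * L ^ 2 * Real.exp (-(α / 8 * L)) := by rw [← Real.exp_add]; ring_nf
      _ ≤ _ := hLX1
  have hx2 : I / (Real.exp (-(α / 2 * L)) * (Real.exp (α * L) / 2))
      ≤ γ ^ 2 / 4 := by
    refine le_trans ?_ hLX2
    have hτR : Real.exp (-(α / 2 * L)) * (Real.exp (α * L) / 2)
        = Real.exp (α / 2 * L) / 2 := by
      rw [← mul_div_assoc, ← Real.exp_add]; ring_nf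
    rw [hτR, div_le_iff₀ (by positivity)]
    calc I ≤ L ^ 2 * Real.exp (κ * L) := hIK
      _ ≤ L ^ 2 * Real.exp (α / 4 * L) := by gcongr
      _ = _ := by
          rw [show α / 4 * L = -(α / 4 * L) + α / 2 * L by ring, Real.exp_add]
          ring_nf
  have : (X * sd p ^ 2 * Real.sqrt (Real.exp (-(α / 2 * L))) * I
      + I / (Real.exp (-(α / 2 * L)) * (Real.exp (α * L) / 2))
      + 2 * Real.exp (-(1 / 4 * L))) / γ ≤ γ := by
    rw [div_le_iff₀ hγ]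
    nlinarith
  linarith

/-- The middle levels carry little weight. -/
lemma mid_levels {f : (Edge n r → Bool) → ℝ} (hf : IsBit f) (hinv : IsInv f)
    (P : Params r γ A α η κ) (S : Scale r n p γ α κ L l Λ) (hρ : ρ = (r : ℝ) / ((r : ℝ) - 1))
    (hρ2 : Λ ^ ρ ≤ Λ ^ 2) (hKL : sd p ^ 2 * totalInf p f ≤ L ^ 2)
    (hIK : totalInf p f ≤ L ^ 2 * Real.exp (κ * L)) :
    ∑ S ∈ univ.filter (fun S : Finset (Edge n r) =>
      Λ / 8 < (S.card : ℝ) ∧ (S.card : ℝ) ≤ η * Λ ^ ρ / γ), coef p f S ^ 2 ≤ 4 * γ := by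
  have hBexp := S.bon_pow
  have hP := P
  have hS := S
  obtain ⟨hr, hγ, hγ8, hA, hαdef, hη, hη1, -, hηd, hκ, hκα, hκA, -⟩ := P
  obtain ⟨h0, h1, hexpL, hnpos, -, -, hl1, -, hΛl, hΛL, hΛκ, hΛ0, hΛ1, hL1, hn2r, -, -, hLX1,
    hLX2, hLν⟩ := S
  have hA0 : 0 < A := by rw [hA]; positivity
  have hα : 0 < α := by rw [hαdef]; positivity
  have hI0 := totalInf_nonneg h0.le h1.le f
  have hs := sd_pos h0 h1
  have hB0 : 0 < bon p := by linarith [bon_ge h0 h1]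
  have hΛρ0 : 0 < Λ ^ ρ := Real.rpow_pos_of_pos hΛ0 ρ
  set s0 := η * Λ ^ ρ / γ with hs0
  -- sizes
  set δ := A / Λ with hδdef
  have hδ : 0 < δ := by positivity
  have hδ1 : δ ≤ 1 := by rw [hδdef, div_le_one hΛ0]; nlinarith
  set d := ⌊A * η * Λ / γ ^ 2⌋₊ with hddef
  set m := ⌊s0⌋₊ with hmdef
  have hm : (m : ℝ) ≤ L ^ 2 / γ := by
    refine (Nat.floor_le (by positivity)).trans ?_
    rw [hs0]
    gcongr
    calc η * Λ ^ ρ ≤ 1 * Λ ^ ρ := mul_le_mul_of_nonneg_right hη1 hΛρ0.le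
      _ ≤ L ^ 2 := by rw [one_mul]; exact hρ2.trans (pow_le_pow_left₀ hΛ0.le hΛL 2)
  have hdα : A * η * Λ / γ ^ 2 ≤ α / 8 * Λ := by
    rw [div_le_iff₀ (by positivity)]
    nlinarith [mul_le_mul_of_nonneg_right hηd hΛ0.le]
  have hBd : bon p ^ d ≤ Real.exp (α / 8 * L) := by
    rw [hBexp, Real.exp_le_exp]
    calc (d : ℝ) * l ≤ α / 8 * Λ * l := mul_le_mul_of_nonneg_right
          ((Nat.floor_le (by positivity)).trans hdα) (by linarith)
      _ = α / 8 * L := by rw [mul_assoc, hΛl]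
  refine (mid_avg hf h0 h1 hδ hδ1 hγ (R := Real.exp (α * L) / 2)
    (τ := Real.exp (-(α / 2 * L))) (ν := Real.exp (-(1 / 4 * L))) (θ := γ) (β := 2 * γ)
    (by positivity) (by positivity) (by positivity) hγ (by positivity) _ d m ?_ ?_).trans ?_
  · intro S hS'
    exact mid_size hP hρ hΛ0 (mem_filter.1 hS').2.1 (mem_filter.1 hS').2.2
  · intro S hS' T hv ht
    obtain ⟨hlo, hhi⟩ := (mem_filter.1 hS').2
    obtain ⟨htd, htL⟩ := mid_count hP hΛ0 hΛL hρ2 hhi ht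
    exact ⟨htd, loss_le hf hinv hP hS T hm hlo ht hv htL⟩
  · exact rest_small hP hS hBd hI0 hKL hIK

end

lemma eventual_conditions (r : ℕ) {γ α κ : ℝ} (hγ : 0 < γ) (hα : 0 < α) (hκ : 0 < κ) :
    ∀ᶠ L : ℝ in Filter.atTop,
      1 ≤ L ∧ 2 * Real.log 4 ≤ κ * L
      ∧ 2 * (r : ℝ) * L ^ 2 / γ * Real.exp (-(1 / 2 * L)) ≤ 1
      ∧ 2 * (r : ℝ) * L * Real.exp (-(1 * L)) ≤ 1
      ∧ 2 * L ^ 3 * Real.exp (-(1 / 4 * L)) ≤ γ
      ∧ 1 * L ^ 2 * Real.exp (-(α / 8 * L)) ≤ γ ^ 2 / 4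
      ∧ 2 * L ^ 2 * Real.exp (-(α / 4 * L)) ≤ γ ^ 2 / 4
      ∧ 1 * L ^ 0 * Real.exp (-(1 / 4 * L)) ≤ γ ^ 2 / 4 := by
  have e1 := eventually_small 2 (2 * (r : ℝ) / γ) (c := 1 / 2) (ε := 1) (by norm_num) one_pos
  have e2 := eventually_small 1 (2 * (r : ℝ)) (c := 1) (ε := 1) one_pos one_pos
  have e3 := eventually_small 3 2 (c := 1 / 4) (ε := γ) (by norm_num) hγ
  have e4 := eventually_small 2 1 (c := α / 8) (ε := γ ^ 2 / 4) (by positivity) (by positivity)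
  have e5 := eventually_small 2 2 (c := α / 4) (ε := γ ^ 2 / 4) (by positivity) (by positivity)
  have e6 := eventually_small 0 1 (c := 1 / 4) (ε := γ ^ 2 / 4) (by norm_num) (by positivity)
  filter_upwards [Filter.eventually_ge_atTop (1 : ℝ),
    (Filter.tendsto_id.const_mul_atTop hκ).eventually_ge_atTop (2 * Real.log 4),
    e1, e2, e3, e4, e5, e6] with L a b c d e g h i
  refine ⟨a, b, ?_, by simpa using d, e, g, h, i⟩
  rw [mul_div_right_comm]
  exact c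

/-- The average level is at least a power of the scale. -/
lemma spectral_core {n r : ℕ} {γ A α η κ p L l Λ ρ : ℝ} {f : (Edge n r → Bool) → ℝ}
    (hf : IsBit f) (hinv : IsInv f) (hP : Params r γ A α η κ) (hS : Scale r n p γ α κ L l Λ)
    (hρ : ρ = (r : ℝ) / ((r : ℝ) - 1))
    (hmass : 7 * γ < ∑ S ∈ univ.filter (fun S : Finset (Edge n r) => S.Nonempty),
      coef p f S ^ 2) :
    η * Λ ^ ρ ≤ sd p ^ 2 * totalInf p f := by
  have hr' : (2 : ℝ) ≤ r := by exact_mod_cast hP.hr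
  have hρ2 : ρ ≤ 2 := by rw [hρ, div_le_iff₀ (by linarith)]; linarith
  have hη := hP.hη
  have hη1 := hP.hη1
  have hγ := hP.hγ
  obtain ⟨h0, h1, -, -, hs2, -, -, -, -, hΛL, -, hΛ0, hΛ1, -, -, -, -, -, -, -⟩ := id hS
  have hI0 := totalInf_nonneg h0.le h1.le f
  set K := sd p ^ 2 * totalInf p f with hK
  by_contra hKlt
  replace hKlt := (not_le.1 hKlt).le
  set s0 := η * Λ ^ ρ / γ with hs0
  have hΛρ2 : Λ ^ ρ ≤ Λ ^ 2 := by
    rw [← Real.rpow_two]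
    exact Real.rpow_le_rpow_of_exponent_le hΛ1 hρ2
  have hΛρ0 : 0 < Λ ^ ρ := Real.rpow_pos_of_pos hΛ0 ρ
  have hKL : K ≤ L ^ 2 := by
    calc K ≤ 1 * Λ ^ ρ := hKlt.trans (mul_le_mul_of_nonneg_right hη1 hΛρ0.le)
      _ ≤ L ^ 2 := by rw [one_mul]; exact hΛρ2.trans (pow_le_pow_left₀ hΛ0.le hΛL 2)
  have hIK : totalInf p f ≤ L ^ 2 * Real.exp (κ * L) := by
    have h : totalInf p f * Real.exp (-(κ * L)) ≤ L ^ 2 :=
      (mul_le_mul_of_nonneg_left hs2 hI0).trans (by rw [mul_comm]; exact hKL)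
    rw [Real.exp_neg, ← div_eq_mul_inv, div_le_iff₀ (Real.exp_pos _)] at h
    exact h
  have hlow := low_levels hf hinv hP hS hKL hIK
  have hmid := mid_levels hf hinv hP hS hρ hΛρ2 hKL hIK
  -- the three ranges
  set Low := univ.filter (fun S : Finset (Edge n r) => S.Nonempty ∧ S.card ≤ ⌊Λ / 8⌋₊) with hLow
  set Tail := univ.filter (fun S : Finset (Edge n r) => s0 < (S.card : ℝ)) with hTail
  set Mid := univ.filter (fun S : Finset (Edge n r) =>
    Λ / 8 < (S.card : ℝ) ∧ (S.card : ℝ) ≤ s0) with hMid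
  have hcover : ∑ S ∈ univ.filter (fun S : Finset (Edge n r) => S.Nonempty), coef p f S ^ 2
      ≤ ∑ S ∈ Low, coef p f S ^ 2 + ∑ S ∈ Tail, coef p f S ^ 2
        + ∑ S ∈ Mid, coef p f S ^ 2 := by
    simp only [hLow, hTail, hMid, sum_filter, ← sum_add_distrib]
    refine sum_le_sum fun S _ => ?_
    have := sq_nonneg (coef p f S)
    by_cases hne : S.Nonempty
    · by_cases h1 : S.card ≤ ⌊Λ / 8⌋₊
      · simp only [hne, h1, and_self, if_true]
        split_ifs <;> linarith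
      · have h1' : Λ / 8 < (S.card : ℝ) := Nat.lt_of_floor_lt (not_le.1 h1)
        by_cases h2 : s0 < (S.card : ℝ)
        · simp only [hne, h2, if_true]
          split_ifs <;> linarith
        · simp [hne, h1, h1', h2, not_lt.1 h2]
    · simp only [hne, false_and, if_false]
      split_ifs <;> linarith
  have htail : ∑ S ∈ Tail, coef p f S ^ 2 ≤ γ := by
    have h : s0 * ∑ S ∈ Tail, coef p f S ^ 2 ≤ K := by
      rw [hK, ← spec_total hf h0 h1, mul_sum]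
      refine le_trans (sum_le_sum fun S hS => ?_)
        (sum_le_sum_of_subset_of_nonneg (subset_univ Tail) fun _ _ _ => by positivity)
      exact mul_le_mul_of_nonneg_right (mem_filter.1 hS).2.le (sq_nonneg _)
    have hs0pos : 0 < s0 := by positivity
    refine le_of_mul_le_mul_left (h.trans (hKlt.trans_eq ?_)) hs0pos
    rw [hs0, div_mul_cancel₀ _ hγ.ne']
  linarith


lemma exists_scale {n r : ℕ} {γ α κ p : ℝ} (hn : 1 ≤ n) (hκ : 0 < κ) (hκ16 : κ ≤ 1 / 16)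
    (h0 : 0 < p) (h1 : p < 1) (hp : Real.exp (-(κ * Real.log n)) ≤ p * (1 - p))
    (hev : 1 ≤ Real.log n ∧ 2 * Real.log 4 ≤ κ * Real.log n
      ∧ 2 * (r : ℝ) * Real.log n ^ 2 / γ * Real.exp (-(1 / 2 * Real.log n)) ≤ 1
      ∧ 2 * (r : ℝ) * Real.log n * Real.exp (-(1 * Real.log n)) ≤ 1
      ∧ 2 * Real.log n ^ 3 * Real.exp (-(1 / 4 * Real.log n)) ≤ γ
      ∧ 1 * Real.log n ^ 2 * Real.exp (-(α / 8 * Real.log n)) ≤ γ ^ 2 / 4
      ∧ 2 * Real.log n ^ 2 * Real.exp (-(α / 4 * Real.log n)) ≤ γ ^ 2 / 4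
      ∧ 1 * Real.log n ^ 0 * Real.exp (-(1 / 4 * Real.log n)) ≤ γ ^ 2 / 4) :
    Scale r n p γ α κ (Real.log n) (Real.log (bon p)) (Real.log n / Real.log (bon p)) := by
  obtain ⟨hL1, hLκ, hLb, hLr, hLlow, hLX1, hLX2, hLν⟩ := hev
  set L := Real.log n with hL
  have hnpos : (0 : ℝ) < n := Nat.cast_pos.2 hn
  have hexpL : Real.exp L = n := Real.exp_log hnpos
  have hs := sd_pos h0 h1
  have hs2 : Real.exp (-(κ * L)) ≤ sd p ^ 2 := by rw [sd_sq h0 h1]; exact hp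
  set B := bon p with hB
  have hB8 : 8 ≤ B := bon_ge h0 h1
  have hB0 : 0 < B := by linarith
  set l := Real.log B with hl
  have hl1 : 1 ≤ l := by
    rw [hl, Real.le_log_iff_exp_le hB0]
    linarith [Real.exp_one_lt_d9]
  have hlκ : l ≤ κ * L := by
    have h := Real.log_le_log (Real.exp_pos _) hs2
    rw [Real.log_exp, Real.log_pow] at h
    rw [hl, hB, bon, Real.log_div (by norm_num) hs.ne']
    push_cast at h
    linarith
  set Λ := L / l with hΛ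
  have hΛl : Λ * l = L := div_mul_cancel₀ L (by linarith)
  have hΛL : Λ ≤ L := by rw [hΛ, div_le_iff₀ (by linarith)]; nlinarith
  have hΛκ : 1 ≤ Λ * κ := by rw [hΛ, div_mul_eq_mul_div, le_div_iff₀ (by linarith)]; linarith
  have hΛ0 : 0 < Λ := by positivity
  have hΛ1 : 1 ≤ Λ := by nlinarith
  have hn2r : 2 * (r : ℝ) * L ≤ n := by
    rw [one_mul, Real.exp_neg, hexpL, ← div_eq_mul_inv, div_le_one hnpos] at hLr
    exact hLr
  exact ⟨h0, h1, hexpL, hnpos, hs2, hl, hl1, hlκ, hΛl, hΛL, hΛκ, hΛ0, hΛ1, hL1, hn2r, hLb, hLlow,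
    hLX1, hLX2, by simpa using hLν⟩

lemma influence_of_core {n r : ℕ} {γ α κ η p L l Λ ρ I : ℝ} (hS : Scale r n p γ α κ L l Λ)
    (hρ2 : ρ ≤ 2) (hI0 : 0 ≤ I) (hKbig : η * Λ ^ ρ ≤ sd p ^ 2 * I) :
    η / 16 * L ^ ρ ≤ I := by
  obtain ⟨h0, h1, -, -, -, hl, hl1, -, hΛl, -, -, -, -, hL1, -, -, -, -, -, -⟩ := hS
  have hs := sd_pos h0 h1
  set B := bon p with hB
  have hB0 : 0 < B := by linarith [bon_ge h0 h1]
  set K := sd p ^ 2 * I with hK
  have hlB : l ≤ B := hl ▸ Real.log_le_self hB0.le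
  have hΛ : Λ = L / l := by rw [← hΛl, mul_div_assoc, div_self (by linarith), mul_one]
  have hlρ : l ^ ρ ≤ B ^ 2 := by
    calc l ^ ρ ≤ l ^ (2 : ℝ) := Real.rpow_le_rpow_of_exponent_le hl1 hρ2
      _ = l ^ 2 := Real.rpow_two l
      _ ≤ B ^ 2 := pow_le_pow_left₀ (by linarith) hlB 2
  have hlρ0 : 0 < l ^ ρ := Real.rpow_pos_of_pos (by linarith) ρ
  have h3 : sd p ^ 2 * B ^ 2 = 16 := by
    rw [hB, bon, div_pow]; field_simp; norm_num
  rw [hΛ, Real.div_rpow (by linarith) (by linarith), ← mul_div_assoc,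
    div_le_iff₀ hlρ0] at hKbig
  have h4 : K * l ^ ρ ≤ I * 16 := by
    rw [← h3, hK]
    calc sd p ^ 2 * I * l ^ ρ ≤ sd p ^ 2 * I * B ^ 2 :=
          mul_le_mul_of_nonneg_left hlρ (by positivity)
      _ = _ := by ring
  linarith


/-- The total influence of a symmetric nonconstant Boolean function of hypergraphs is large. -/
theorem influence_lb (r : ℕ) (hr : 2 ≤ r) {γ : ℝ} (hγ : 0 < γ) (hγ8 : γ ≤ 1 / 8) :
    ∃ κ c : ℝ, ∃ n₀ : ℕ, 0 < κ ∧ 0 < c ∧ ∀ n : ℕ, n₀ ≤ n → ∀ p : ℝ, 0 < p → p < 1 →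
      Real.exp (-(κ * Real.log n)) ≤ p * (1 - p) →
      ∀ f : (Edge n r → Bool) → ℝ, IsBit f → IsInv f →
      7 * γ < ∑ S ∈ univ.filter (fun S : Finset (Edge n r) => S.Nonempty), coef p f S ^ 2 →
      c * Real.log n ^ ((r : ℝ) / ((r : ℝ) - 1)) ≤ totalInf p f := by
  classical
  set A := 128 / γ with hA
  have hA0 : 0 < A := by positivity
  set α := γ / 100 with hαdef
  have hα : 0 < α := by positivity
  set η := min 1 (min (γ / (2 * ((r : ℝ) * A) ^ r)) (γ ^ 2 * α / (8 * A))) with hηdef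
  have hη : 0 < η := lt_min one_pos (lt_min (by positivity) (by positivity))
  have hη1 : η ≤ 1 := min_le_left _ _
  have hηA : η * (2 * ((r : ℝ) * A) ^ r) ≤ γ :=
    (le_div_iff₀ (by positivity)).1 ((min_le_right _ _).trans (min_le_left _ _))
  have hηd : η * (8 * A) ≤ γ ^ 2 * α :=
    (le_div_iff₀ (by positivity)).1 ((min_le_right _ _).trans (min_le_right _ _))
  set κ := min (α / 4) (min (1 / (2 * A)) (1 / 16)) with hκdef
  have hκ : 0 < κ := lt_min (by positivity) (lt_min (by positivity) (by norm_num))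
  have hκα : κ ≤ α / 4 := min_le_left _ _
  have hκA : κ * (2 * A) ≤ 1 :=
    (le_div_iff₀ (by positivity)).1 ((min_le_right _ _).trans (min_le_left _ _))
  have hκ16 : κ ≤ 1 / 16 := (min_le_right _ _).trans (min_le_right _ _)
  set ρ := (r : ℝ) / ((r : ℝ) - 1) with hρ
  have hr' : (2 : ℝ) ≤ r := by exact_mod_cast hr
  have hρ1 : 1 ≤ ρ := by rw [hρ, one_le_div (by linarith)]; linarith
  have hρ2 : ρ ≤ 2 := by rw [hρ, div_le_iff₀ (by linarith)]; linarith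
  have hev := eventual_conditions r hγ hα hκ
  obtain ⟨n₀, hn₀⟩ := Filter.eventually_atTop.1
    ((Real.tendsto_log_atTop.comp tendsto_natCast_atTop_atTop).eventually hev)
  refine ⟨κ, η / 16, max n₀ 1, hκ, by positivity, fun n hn p h0 h1 hp f hf hinv hmass => ?_⟩
  have hS := exists_scale (r := r) ((le_max_right _ _).trans hn) hκ hκ16 h0 h1 hp
    (hn₀ n (le_trans (le_max_left _ _) hn))
  exact influence_of_core hS hρ2 (totalInf_nonneg h0.le h1.le f)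
    (spectral_core hf hinv ⟨hr, hγ, hγ8, hA, hαdef, hη, hη1, hηA, hηd, hκ, hκα, hκA, hκ16⟩
      hS hρ hmass)

end Vale.Agent.P063
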