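import Vale.Agent.P063.Master

/-! Consequences of invariance under vertex permutations, and a covering lemma. -/

set_option linter.unusedSectionVars false

namespace Vale.Agent.P063

open Finset

/-- The potential edges of an `r`-uniform hypergraph on `n` labelled vertices. -/
abbrev Edge (n r : ℕ) : Type := {e : Finset (Fin n) // e.card = r}

/-- The action of a vertex permutation on potential edges. -/
def actE {n r : ℕ} (σ : Equiv.Perm (Fin n)) : Edge n r ≃ Edge n r where
  toFun e := ⟨e.1.map σ.toEmbedding, by rw [card_map]; exact e.2⟩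
  invFun e := ⟨e.1.map σ.symm.toEmbedding, by rw [card_map]; exact e.2⟩
  left_inv e := Subtype.ext (by ext a; simp)
  right_inv e := Subtype.ext (by ext a; simp)

/-- Invariance under vertex permutations. -/
def IsInv {n r : ℕ} (f : (Edge n r → Bool) → ℝ) : Prop :=
  ∀ (σ : Equiv.Perm (Fin n)) (x : Edge n r → Bool), f (fun e => x (actE σ e)) = f x

/-- The vertices covered by a set of edges. -/
def vset {n r : ℕ} (T : Finset (Edge n r)) : Finset (Fin n) := T.biUnion fun e => e.1

variable {n r : ℕ}

lemma Ex_act (p : ℝ) (σ : Equiv.Perm (Fin n)) (g : (Edge n r → Bool) → ℝ) :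
    Ex p (fun x => g (fun e => x (actE σ e))) = Ex p g := by
  unfold Ex
  refine Fintype.sum_equiv (Equiv.arrowCongr (actE σ).symm (Equiv.refl Bool)) _ _ fun x => ?_
  have hw : wt p (fun e => x (actE σ e)) = wt p x :=
    Equiv.prod_comp (actE σ) (fun e => if x e then p else 1 - p)
  simp only [Equiv.arrowCongr_apply, Equiv.coe_refl, Equiv.symm_symm, Function.id_comp]
  show _ = wt p (fun e => x (actE σ e)) * g (fun e => x (actE σ e))
  rw [hw]

lemma coef_act {f : (Edge n r → Bool) → ℝ} (hf : IsInv f) (p : ℝ) (σ : Equiv.Perm (Fin n))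
    (T : Finset (Edge n r)) : coef p f (T.map (actE σ).toEmbedding) = coef p f T := by
  unfold coef
  rw [← Ex_act p σ (fun x => f x * chi p T x)]
  refine Ex_congr fun x => ?_
  rw [hf σ x, chi, chi, prod_map]
  rfl

lemma exists_act (e e' : Edge n r) : ∃ σ : Equiv.Perm (Fin n), actE σ e = e' := by
  have hcard : Fintype.card {a // a ∈ e.1} = Fintype.card {a // a ∈ e'.1} := by
    simp [e.2, e'.2]
  refine ⟨(Fintype.equivOfCardEq hcard).extendSubtype, Subtype.ext ?_⟩
  refine eq_of_subset_of_card_le (fun a ha => ?_) (by simp [e.2, e'.2, card_map, actE])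
  obtain ⟨b, hb, rfl⟩ := mem_map.1 ha
  exact Equiv.extendSubtype_mem _ b hb

lemma piv_eq {f : (Edge n r → Bool) → ℝ} (hf : IsInv f) (p : ℝ) (e e' : Edge n r) :
    piv p e f = piv p e' f := by
  obtain ⟨σ, rfl⟩ := exists_act e e'
  unfold piv
  rw [← Ex_act p σ (fun x => |diff e f x|)]
  refine Ex_congr fun x => ?_
  have h : ∀ b, f (Function.update (fun i => x (actE σ i)) e b)
      = f (Function.update x (actE σ e) b) := fun b => by
    rw [← hf σ (Function.update x (actE σ e) b)]
    refine congrArg f (funext fun i => ?_)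
    by_cases hi : i = e
    · subst hi; simp
    · simp [Function.update_of_ne hi, (actE σ).injective.ne hi]
  simp [diff, h]

/-- Fourier weight of the supersets of `T` of size at most `m`. -/
noncomputable def upW (p : ℝ) (f : (Edge n r → Bool) → ℝ) (m : ℕ) (T : Finset (Edge n r)) : ℝ :=
  ∑ S ∈ univ.filter (fun S => T ⊆ S ∧ S.card ≤ m), coef p f S ^ 2

lemma upW_act {f : (Edge n r → Bool) → ℝ} (hf : IsInv f) (p : ℝ) (m : ℕ)
    (σ : Equiv.Perm (Fin n)) (T : Finset (Edge n r)) :
    upW p f m (T.map (actE σ).toEmbedding) = upW p f m T := by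
  refine (sum_equiv (Equiv.finsetCongr (actE σ)) (fun S => ?_) fun S _ => ?_).symm
  · simp [Equiv.finsetCongr_apply, map_subset_map, card_map]
  · rw [Equiv.finsetCongr_apply, coef_act hf]

lemma card_perm_maps (A U : Finset (Fin n)) :
    (univ.filter fun σ : Equiv.Perm (Fin n) => ∀ a ∈ A, σ a ∈ U).card
      ≤ U.card ^ A.card * (n - A.card).factorial := by
  classical
  set F : Equiv.Perm (Fin n) → ({a // a ∈ A} → Fin n) := fun σ a => σ a.1 with hF
  set s := univ.filter fun σ : Equiv.Perm (Fin n) => ∀ a ∈ A, σ a ∈ U with hs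
  have himg : (s.image F).card ≤ U.card ^ A.card := by
    calc (s.image F).card ≤ (Fintype.piFinset fun _ : {a // a ∈ A} => U).card := by
          refine card_le_card fun g hg => ?_
          obtain ⟨σ, hσ, rfl⟩ := mem_image.1 hg
          exact Fintype.mem_piFinset.2 fun a => (mem_filter.1 hσ).2 a.1 a.2
      _ = _ := by simp
  refine le_trans (card_le_mul_card_image (f := F) s (n - A.card).factorial fun g hg => ?_) ?_
  · obtain ⟨σ₀, hσ₀, rfl⟩ := mem_image.1 hg
    calc (s.filter fun σ => F σ = F σ₀).card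
        ≤ (univ.filter fun τ : Equiv.Perm (Fin n) => ∀ a, ¬ a ∉ A → τ a = a).card := by
          refine card_le_card_of_injOn (fun σ => σ₀⁻¹ * σ) (fun σ hσ => ?_)
            (fun σ _ σ' _ h => mul_left_cancel h)
          simp only [mem_coe, mem_filter, mem_univ, true_and, not_not]
          intro a ha
          have h := congrFun (mem_filter.1 hσ).2 ⟨a, ha⟩
          simp only [hF] at h
          simp [Equiv.Perm.mul_apply, h]
      _ = Fintype.card (Equiv.Perm {a // a ∉ A}) := by
          rw [← Fintype.card_subtype]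
          exact (Fintype.card_congr (Equiv.Perm.subtypeEquivSubtypePerm fun a => a ∉ A)).symm
      _ = _ := by simp [Fintype.card_perm, Fintype.card_subtype_compl]
  · rw [mul_comm]
    exact Nat.mul_le_mul_right _ himg

lemma vset_card_le (S : Finset (Edge n r)) : (vset S).card ≤ r * S.card := by
  unfold vset
  refine card_biUnion_le.trans ?_
  rw [mul_comm, ← smul_eq_mul]
  refine sum_le_card_nsmul _ _ _ fun e _ => ?_
  rw [e.2]

/-- Symmetry makes the weight above a fixed set small. -/
lemma upW_le {f : (Edge n r → Bool) → ℝ} (hb : IsBit f) (hf : IsInv f) {p : ℝ} (h0 : 0 < p)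
    (h1 : p < 1) (m : ℕ) (T : Finset (Edge n r)) :
    upW p f m T * ((n + 1 - (vset T).card : ℕ) : ℝ) ^ (vset T).card
      ≤ ((r * m : ℕ) : ℝ) ^ (vset T).card := by
  classical
  set v := (vset T).card with hv
  have hvn : v ≤ n := (card_le_univ (vset T)).trans_eq (Fintype.card_fin n)
  have key : (n.factorial : ℝ) * upW p f m T ≤ ((r * m) ^ v * (n - v).factorial : ℕ) := by
    calc (n.factorial : ℝ) * upW p f m T
        = ∑ σ : Equiv.Perm (Fin n), upW p f m (T.map (actE σ).toEmbedding) := by
          simp only [upW_act hf, sum_const, card_univ, Fintype.card_perm, Fintype.card_fin,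
            nsmul_eq_mul]
      _ = ∑ S : Finset (Edge n r), ∑ σ : Equiv.Perm (Fin n),
            if T.map (actE σ).toEmbedding ⊆ S ∧ S.card ≤ m then coef p f S ^ 2 else 0 := by
          simp only [upW, sum_filter]
          exact sum_comm
      _ ≤ ∑ S : Finset (Edge n r),
            (((r * m) ^ v * (n - v).factorial : ℕ) : ℝ) * coef p f S ^ 2 := by
          refine sum_le_sum fun S _ => ?_
          by_cases hS : S.card ≤ m
          · simp only [hS, and_true]
            rw [← sum_filter, sum_const, nsmul_eq_mul]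
            refine mul_le_mul_of_nonneg_right (Nat.cast_le.2 ?_) (sq_nonneg _)
            refine le_trans (card_le_card fun σ hσ => ?_)
              ((card_perm_maps (vset T) (vset S)).trans (Nat.mul_le_mul_right _
                (Nat.pow_le_pow_left ((vset_card_le S).trans (Nat.mul_le_mul_left r hS)) _)))
            simp only [mem_filter, mem_univ, true_and] at hσ ⊢
            intro a ha
            obtain ⟨e, he, hae⟩ := mem_biUnion.1 ha
            refine mem_biUnion.2 ⟨actE σ e, hσ (mem_map_of_mem _ he), ?_⟩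
            exact mem_map_of_mem σ.toEmbedding hae
          · simp only [hS, and_false, if_false, sum_const_zero]
            positivity
      _ = (((r * m) ^ v * (n - v).factorial : ℕ) : ℝ) * ∑ S, coef p f S ^ 2 := by rw [mul_sum]
      _ ≤ _ := by
          refine (mul_le_mul_of_nonneg_left (hb.parseval_le h0 h1 univ) (Nat.cast_nonneg _)).trans
            (le_of_eq (mul_one _))
  have hup : 0 ≤ upW p f m T := sum_nonneg fun _ _ => sq_nonneg _
  have hd : (n + 1 - v) ^ v * (n - v).factorial ≤ n.factorial := by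
    rw [← Nat.factorial_mul_descFactorial hvn, mul_comm]
    exact Nat.mul_le_mul_left _ (Nat.pow_sub_le_descFactorial n v)
  have hd' : (((n + 1 - v : ℕ) : ℝ) ^ v) * ((n - v).factorial : ℝ) ≤ (n.factorial : ℝ) := by
    exact_mod_cast hd
  push_cast at key ⊢
  refine le_of_mul_le_mul_right ?_ (Nat.cast_pos.2 (Nat.factorial_pos (n - v)))
  calc upW p f m T * ((n + 1 - v : ℕ) : ℝ) ^ v * ((n - v).factorial : ℝ)
      ≤ upW p f m T * (n.factorial : ℝ) := by
        rw [mul_assoc]; exact mul_le_mul_of_nonneg_left hd' hup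
    _ ≤ _ := by rw [mul_comm]; exact key

/-- The random set attached to a point of the cube. -/
def live {α : Type*} [Fintype α] (x : α → Bool) : Finset α := univ.filter fun e => x e = true

section Sampling

variable {α : Type*} [Fintype α] [DecidableEq α]

lemma Ex_absent (δ : ℝ) (A : Finset α) :
    Ex δ (fun x => ∏ e ∈ A, if x e then (0 : ℝ) else 1) = (1 - δ) ^ A.card := by
  have h := Ex_prod δ (fun (e : α) (b : Bool) =>
    if e ∈ A then (if b then (0 : ℝ) else 1) else 1)
  simp only [prod_ite_mem, univ_inter] at h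
  rw [h]
  calc _ = ∏ e, if e ∈ A then 1 - δ else 1 :=
        prod_congr rfl fun e _ => by split_ifs <;> simp_all
    _ = _ := by rw [prod_ite_mem, univ_inter, prod_const]

lemma Ex_absent_var {δ : ℝ} (hδ : 0 ≤ δ) (hδ1 : δ ≤ 1) {ι : Type*} [Fintype ι] [DecidableEq ι]
    (A : ι → Finset α) (hA : ∀ u w, u ≠ w → Disjoint (A u) (A w)) :
    Ex δ (fun x => ((∑ u, (1 - ∏ e ∈ A u, if x e then (0 : ℝ) else 1))
        - ∑ u, (1 - (1 - δ) ^ (A u).card)) ^ 2)
      ≤ ∑ u, (1 - (1 - δ) ^ (A u).card) := by
  set Z := fun u (x : α → Bool) => ∏ e ∈ A u, if x e then (0 : ℝ) else 1 with hZ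
  set c := fun u => (1 - δ) ^ (A u).card with hc
  have e1 : ∀ x, ((∑ u, (1 - Z u x)) - ∑ u, (1 - c u)) ^ 2
      = ∑ u, ∑ w, (c u * c w - c u * Z w x - c w * Z u x + Z u x * Z w x) := by
    intro x
    rw [← sum_sub_distrib, pow_two, sum_mul_sum]
    exact sum_congr rfl fun u _ => sum_congr rfl fun w _ => by ring
  have hEZ : ∀ u, Ex δ (Z u) = c u := fun u => Ex_absent δ (A u)
  have hEZZ : ∀ u w, Ex δ (fun x => Z u x * Z w x)
      = if u = w then c u else c u * c w := by
    intro u w
    split_ifs with h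
    · subst h
      rw [← hEZ u]
      refine Ex_congr fun x => ?_
      simp only [hZ, ← prod_mul_distrib]
      exact prod_congr rfl fun e _ => by split_ifs <;> norm_num
    · simp only [hc, ← pow_add, ← card_union_of_disjoint (hA u w h)]
      rw [← Ex_absent]
      exact Ex_congr fun x => by rw [prod_union (hA u w h)]
  rw [Ex_congr e1]
  simp only [Ex_sum, Ex_add, Ex_sub, Ex_const_mul, Ex_const, hEZ, hEZZ]
  calc ∑ u, ∑ w, (c u * c w - c u * c w - c w * c u + if u = w then c u else c u * c w)
      = ∑ u, ∑ w, (if u = w then c u - c u ^ 2 else 0) := by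
        refine sum_congr rfl fun u _ => sum_congr rfl fun w _ => ?_
        split_ifs with h
        · subst h; ring
        · ring
    _ = ∑ u, (c u - c u ^ 2) := by simp
    _ ≤ _ := sum_le_sum fun u _ => by
        have : c u ≤ 1 := pow_le_one₀ (by linarith) (by linarith)
        nlinarith [sq_nonneg (1 - c u)]

lemma Ex_sample_card (δ : ℝ) (S : Finset α) :
    Ex δ (fun x : α → Bool => ((S ∩ live x).card : ℝ)) = δ * S.card := by
  have h : ∀ x : α → Bool, ((S ∩ live x).card : ℝ) = ∑ e ∈ S, if x e then (1 : ℝ) else 0 := by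
    intro x
    rw [sum_boole]
    congr 2
    ext e; simp [live]
  rw [Ex_congr h, Ex_sum]
  simp only [Ex_bit δ _ (fun b => if b then (1 : ℝ) else 0), if_true, Bool.false_eq_true,
    if_false, mul_one, mul_zero, add_zero, sum_const, nsmul_eq_mul]
  ring

lemma one_sub_pow_le {δ : ℝ} (hδ : 0 ≤ δ) (hδ1 : δ ≤ 1) (m : ℕ) (hm : (m : ℝ) * δ ≤ 1) :
    (1 - δ) ^ m ≤ 1 - m * δ / 2 := by
  have h1 : (1 - δ) ^ m ≤ Real.exp (-δ) ^ m :=
    pow_le_pow_left₀ (by linarith) (Real.one_sub_le_exp_neg δ) _
  rw [← Real.exp_nat_mul, mul_neg, Real.exp_neg] at h1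
  have ha0 : 0 ≤ (m : ℝ) * δ := by positivity
  generalize (m : ℝ) * δ = a at h1 hm ha0 ⊢
  have h2 := Real.add_one_le_exp a
  have h3 : 1 ≤ (1 - a / 2) * Real.exp a := by nlinarith
  refine h1.trans ?_
  rw [inv_eq_one_div, div_le_iff₀ (Real.exp_pos a)]
  linarith

end Sampling

/-- Group most edges by a vertex of small degree. -/
lemma exists_groups {δ : ℝ} (hδ : 0 < δ) (S : Finset (Edge n r))
    (hq : 0 < S.card) (hhigh : ((r : ℝ) * S.card * δ) ^ r ≤ (S.card : ℝ) / 2) :
    ∃ grp : Fin n → Finset (Edge n r), (∀ u, ∀ e ∈ grp u, e ∈ S ∧ u ∈ e.1)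
      ∧ (∀ u w, u ≠ w → Disjoint (grp u) (grp w))
      ∧ (S.card : ℝ) / 2 ≤ ∑ u, ((grp u).card : ℝ)
      ∧ ∀ u, ((grp u).card : ℝ) * δ ≤ 1 := by
  classical
  set q := (S.card : ℝ) with hqdef
  have hq' : 0 < q := Nat.cast_pos.2 hq
  set deg := fun u : Fin n => (S.filter fun e => u ∈ e.1).card with hdeg
  set Hi := univ.filter fun u => 1 < (deg u : ℝ) * δ with hHi
  have hHcard : (Hi.card : ℝ) ≤ r * q * δ := by
    have hsum : ∑ u : Fin n, (deg u : ℝ) = r * q := by
      have : ∑ u : Fin n, deg u = r * S.card := by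
        simp only [hdeg, card_filter]
        rw [sum_comm, mul_comm, ← smul_eq_mul, ← sum_const]
        refine sum_congr rfl fun e _ => ?_
        rw [← card_filter, filter_mem_eq_inter, univ_inter, e.2]
      rw [hqdef]; exact_mod_cast this
    calc (Hi.card : ℝ) = ∑ u ∈ Hi, (1 : ℝ) := by simp
      _ ≤ ∑ u ∈ Hi, (deg u : ℝ) * δ := sum_le_sum fun u hu => (mem_filter.1 hu).2.le
      _ ≤ ∑ u : Fin n, (deg u : ℝ) * δ :=
          sum_le_sum_of_subset_of_nonneg (subset_univ _) fun _ _ _ => by positivity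
      _ = _ := by rw [← sum_mul, hsum]
  set G := S.filter fun e => (e.1 \ Hi).Nonempty with hG
  have hGcard : q / 2 ≤ (G.card : ℝ) := by
    have h1 : (S.filter fun e => ¬ (e.1 \ Hi).Nonempty).card ≤ Hi.card ^ r := by
      calc _ ≤ (Hi.powersetCard r).card := by
            refine card_le_card_of_injOn (fun e => e.1) (fun e he => ?_)
              (fun a _ b _ h => Subtype.ext h)
            have h := (mem_filter.1 he).2
            rw [not_nonempty_iff_eq_empty, sdiff_eq_empty_iff_subset] at h
            exact mem_powersetCard.2 ⟨h, e.2⟩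
        _ ≤ _ := by rw [card_powersetCard]; exact Nat.choose_le_pow _ _
    have h2 := card_filter_add_card_filter_not (s := S) (fun e => (e.1 \ Hi).Nonempty)
    have h3 : ((S.filter fun e => ¬ (e.1 \ Hi).Nonempty).card : ℝ) ≤ q / 2 := by
      refine le_trans ?_ hhigh
      refine le_trans (b := (Hi.card : ℝ) ^ r) (by exact_mod_cast h1) ?_
      exact pow_le_pow_left₀ (Nat.cast_nonneg _) hHcard r
    have h4 : (G.card : ℝ) + ((S.filter fun e => ¬ (e.1 \ Hi).Nonempty).card : ℝ) = q := by
      rw [hqdef]; exact_mod_cast h2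
    linarith
  set grp := fun u : Fin n => G.filter fun e => (e.1 \ Hi).min = (u : WithTop (Fin n)) with hgrp
  have hgmem : ∀ u, ∀ e ∈ grp u, e ∈ S ∧ u ∈ e.1 ∧ u ∉ Hi := by
    intro u e he
    obtain ⟨he1, he2⟩ := mem_filter.1 he
    exact ⟨(mem_filter.1 he1).1, mem_sdiff.1 (mem_of_min he2)⟩
  have hgsum : ∑ u, ((grp u).card : ℝ) = G.card := by
    have : ∑ u, (grp u).card = G.card := by
      simp only [hgrp, card_filter]
      rw [sum_comm, card_eq_sum_ones]
      refine sum_congr rfl fun e he => ?_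
      obtain ⟨a, ha⟩ := min_of_nonempty (mem_filter.1 he).2
      simp [ha]
    exact_mod_cast this
  have hsmall : ∀ u, ((grp u).card : ℝ) * δ ≤ 1 := by
    intro u
    rcases (grp u).eq_empty_or_nonempty with h | ⟨e, he⟩
    · simp [h]
    · have hu := (hgmem u e he).2.2
      simp only [hHi, mem_filter, mem_univ, true_and, not_lt] at hu
      refine le_trans (mul_le_mul_of_nonneg_right (Nat.cast_le.2 (card_le_card ?_)) hδ.le) hu
      exact fun e he => mem_filter.2 ⟨(hgmem u e he).1, (hgmem u e he).2.1⟩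
  exact ⟨grp, fun u e he => ⟨(hgmem u e he).1, (hgmem u e he).2.1⟩,
    fun u w h => disjoint_filter.2 fun e _ h1 h2 => h (WithTop.coe_inj.1 (h1.symm.trans h2)),
    hgsum ▸ hGcard, hsmall⟩

/-- A sparse random sample of a set of edges usually covers many vertices. -/
lemma coverage {δ γ : ℝ} (hδ : 0 < δ) (hδ1 : δ ≤ 1) (hγ : 0 < γ) (S : Finset (Edge n r))
    (hq : 0 < S.card) (hhigh : ((r : ℝ) * S.card * δ) ^ r ≤ (S.card : ℝ) / 2) :
    Ex δ (fun x => if ((vset (S ∩ live x)).card : ℝ) < δ * S.card / 8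
        ∨ δ * S.card / γ < ((S ∩ live x).card : ℝ) then (1 : ℝ) else 0)
      ≤ 16 / (δ * S.card) + γ := by
  classical
  obtain ⟨grp, hgmem, hgdis, hgq, hsmall⟩ := exists_groups hδ S hq hhigh
  set q := (S.card : ℝ) with hqdef
  have hq' : 0 < q := Nat.cast_pos.2 hq
  set Z := fun u x => ∏ e ∈ grp u, if (x : Edge n r → Bool) e then (0 : ℝ) else 1 with hZ
  set c := fun u => (1 - δ) ^ (grp u).card with hc
  set μ := ∑ u, (1 - c u) with hμ
  have hc01 : ∀ u, 0 ≤ c u ∧ c u ≤ 1 - (grp u).card * δ / 2 := fun u =>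
    ⟨pow_nonneg (by linarith) _, one_sub_pow_le hδ.le hδ1 (grp u).card (hsmall u)⟩
  have hμlb : δ * q / 4 ≤ μ := by
    calc δ * q / 4 ≤ δ / 2 * ∑ u, ((grp u).card : ℝ) := by nlinarith
      _ = ∑ u, ((grp u).card : ℝ) * δ / 2 := by rw [← sum_div, ← sum_mul]; ring
      _ ≤ μ := sum_le_sum fun u _ => by linarith [(hc01 u).2]
  have hμpos : 0 < μ := lt_of_lt_of_le (by positivity) hμlb
  set X := fun x => ∑ u, (1 - Z u x) with hX
  have hXv : ∀ x, X x ≤ ((vset (S ∩ live x)).card : ℝ) := by
    intro x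
    calc X x ≤ ∑ u, (if u ∈ vset (S ∩ live x) then (1 : ℝ) else 0) := by
          refine sum_le_sum fun u _ => ?_
          by_cases hu : ∃ e ∈ grp u, x e = true
          · obtain ⟨e, he, hxe⟩ := hu
            have hz : Z u x = 0 := prod_eq_zero he (by simp [hxe])
            have hv : u ∈ vset (S ∩ live x) :=
              mem_biUnion.2 ⟨e, mem_inter.2 ⟨(hgmem u e he).1, by simp [live, hxe]⟩,
                (hgmem u e he).2⟩
            simp [hz, hv]
          · have hz : Z u x = 1 := prod_eq_one fun e he => if_neg fun h => hu ⟨e, he, h⟩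
            rw [hz, sub_self]
            split_ifs <;> norm_num
      _ = _ := by simp
  have hvar : Ex δ (fun x => (X x - μ) ^ 2) ≤ μ :=
    Ex_absent_var hδ.le hδ1 grp hgdis
  have hmean : Ex δ (fun x : Edge n r → Bool => ((S ∩ live x).card : ℝ)) = δ * q :=
    Ex_sample_card δ S
  calc Ex δ (fun x => if ((vset (S ∩ live x)).card : ℝ) < δ * q / 8
          ∨ δ * q / γ < ((S ∩ live x).card : ℝ) then (1 : ℝ) else 0)
      ≤ Ex δ (fun x => 4 / μ ^ 2 * (X x - μ) ^ 2 + γ / (δ * q) * ((S ∩ live x).card : ℝ)) := by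
        refine Ex_mono hδ.le hδ1 fun x => ?_
        have a1 : 0 ≤ 4 / μ ^ 2 * (X x - μ) ^ 2 := by positivity
        have a2 : 0 ≤ γ / (δ * q) * ((S ∩ live x).card : ℝ) := by positivity
        split_ifs with h
        · rcases h with h | h
          · have := hXv x
            have : μ / 2 ≤ μ - X x := by linarith
            have : 1 ≤ 4 / μ ^ 2 * (X x - μ) ^ 2 := by
              rw [div_mul_eq_mul_div, le_div_iff₀ (by positivity)]
              nlinarith
            linarith
          · have : 1 ≤ γ / (δ * q) * ((S ∩ live x).card : ℝ) := by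
              rw [div_mul_eq_mul_div, le_div_iff₀ (by positivity)]
              rw [div_lt_iff₀ hγ] at h
              linarith
            linarith
        · linarith
    _ = 4 / μ ^ 2 * Ex δ (fun x => (X x - μ) ^ 2) + γ / (δ * q) * (δ * q) := by
        rw [Ex_add, Ex_const_mul, Ex_const_mul, hmean]
    _ ≤ 4 / μ ^ 2 * μ + γ / (δ * q) * (δ * q) := by gcongr
    _ ≤ _ := by
        rw [div_mul_cancel₀ γ (by positivity)]
        refine add_le_add ?_ le_rfl
        rw [div_mul_eq_mul_div, div_le_div_iff₀ (by positivity) (by positivity)]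
        nlinarith [mul_le_mul_of_nonneg_right hμlb hμpos.le]

end Vale.Agent.P063
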