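import Vale.Agent.P063.Defs
import Vale.Agent.P063.Spectral

/-! From total influence to threshold width. -/

set_option linter.unusedSectionVars false

namespace Vale.Agent.P063

open Finset

section Russo

variable {α : Type*} [Fintype α] [DecidableEq α]

lemma piv_eq_mean {p : ℝ} (h0 : 0 < p) (h1 : p < 1) {f : (α → Bool) → ℝ} (e : α)
    (hmono : ∀ x, 0 ≤ diff e f x) :
    piv p e f = Ex p (fun x => f x * phi p (x e)) / sd p := by
  have h := coef_insert h0 h1 f e (notMem_empty e)
  simp only [coef, chi, insert_empty, prod_singleton, prod_empty, mul_one] at h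
  rw [h, mul_div_cancel_left₀ _ (sd_pos h0 h1).ne']
  exact Ex_congr fun x => abs_of_nonneg (hmono x)

lemma hasDerivAt_wt {p : ℝ} (h0 : 0 < p) (h1 : p < 1) (x : α → Bool) :
    HasDerivAt (fun q => wt q x) (wt p x * ∑ e, phi p (x e) / sd p) p := by
  have hd : ∀ e ∈ (univ : Finset α), HasDerivAt (fun q : ℝ => if x e then q else 1 - q)
      (if x e then 1 else -1) p := fun e _ => by
    cases x e
    · simpa using (hasDerivAt_id' p).const_sub 1
    · simpa using (hasDerivAt_id' p)
  have h := HasDerivAt.fun_finsetProd hd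
  refine h.congr_deriv ?_
  rw [wt, mul_sum]
  refine sum_congr rfl fun e _ => ?_
  rw [← mul_prod_erase univ (fun i => if x i then p else 1 - p) (mem_univ e), smul_eq_mul]
  have hs := (sd_pos h0 h1).ne'
  have hs2 := sd_sq h0 h1
  cases x e <;> simp [phi] <;> field_simp <;> rw [hs2] <;> ring

lemma russo {p : ℝ} (h0 : 0 < p) (h1 : p < 1) {f : (α → Bool) → ℝ}
    (hmono : ∀ e x, 0 ≤ diff e f x) :
    HasDerivAt (fun q => Ex q f) (totalInf p f) p := by
  have h := HasDerivAt.fun_sum (u := (univ : Finset (α → Bool)))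
    fun x _ => (hasDerivAt_wt h0 h1 x).mul_const (f x)
  refine h.congr_deriv ?_
  simp only [totalInf, piv_eq_mean h0 h1 _ (hmono _), Ex, sum_div, mul_sum, sum_mul]
  rw [sum_comm]
  exact sum_congr rfl fun e _ => sum_congr rfl fun x _ => by ring

end Russo

/-- The edge set coded by a point of the cube. -/
def enc {n r : ℕ} (x : Edge n r → Bool) : Finset (Finset (Fin n)) :=
  (live x).map (Function.Embedding.subtype _)

/-- The indicator of a property on the cube. -/
noncomputable def indic {n r : ℕ} (P : Finset (Finset (Finset (Fin n)))) (x : Edge n r → Bool) :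
    ℝ := if enc x ∈ P then 1 else 0

variable {n r : ℕ}

lemma mem_enc {x : Edge n r → Bool} {e : Finset (Fin n)} :
    e ∈ enc x ↔ ∃ h : e.card = r, x ⟨e, h⟩ = true := by
  simp [enc, live]

lemma mem_hypergraphs {H : Finset (Finset (Fin n))} :
    H ∈ hypergraphs n r ↔ ∀ e ∈ H, e.card = r := by
  simp [hypergraphs, subset_iff]

lemma enc_mem (x : Edge n r → Bool) : enc x ∈ hypergraphs n r :=
  mem_hypergraphs.2 fun _ he => (mem_enc.1 he).1

lemma enc_decide {H : Finset (Finset (Fin n))} (hH : H ∈ hypergraphs n r) :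
    enc (fun e : Edge n r => decide (e.1 ∈ H)) = H := by
  ext e
  rw [mem_enc]
  constructor
  · rintro ⟨h, he⟩
    simpa using he
  · intro he
    exact ⟨mem_hypergraphs.1 hH e he, by simpa using he⟩

lemma wt_eq (p : ℝ) (x : Edge n r → Bool) :
    wt p x = p ^ (enc x).card * (1 - p) ^ (n.choose r - (enc x).card) := by
  unfold wt
  rw [prod_ite, prod_const, prod_const, enc, card_map]
  have h := card_filter_add_card_filter_not (s := (univ : Finset (Edge n r))) (fun e => x e = true)
  rw [card_univ, Fintype.card_finset_len, Fintype.card_fin] at h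
  congr 2
  simp only [live]
  omega

lemma Ex_indic {P : Finset (Finset (Finset (Fin n)))} (hP : P ⊆ hypergraphs n r) (p : ℝ) :
    Ex p (indic (r := r) P) = edgeProb n r p P := by
  unfold Ex indic edgeProb
  simp only [mul_ite, mul_one, mul_zero]
  rw [← sum_filter]
  refine sum_nbij' enc (fun H e => decide (e.1 ∈ H)) ?_ ?_ ?_ ?_ ?_
  · intro x hx; exact (mem_filter.1 hx).2
  · intro H hH; exact mem_filter.2 ⟨mem_univ _, by rw [enc_decide (hP hH)]; exact hH⟩
  · intro x _
    funext e
    obtain ⟨e, he⟩ := e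
    simp [mem_enc, he]
  · intro H hH; exact enc_decide (hP hH)
  · intro x _; exact wt_eq p x

lemma indic_isBit (P : Finset (Finset (Finset (Fin n)))) : IsBit (indic (r := r) P) :=
  fun x => by unfold indic; split_ifs <;> simp

lemma indic_isInv {P : Finset (Finset (Finset (Fin n)))} (hP : IsHypergraphProperty n r P) :
    IsInv (indic (r := r) P) := by
  have key : ∀ (σ : Equiv.Perm (Fin n)) (x : Edge n r → Bool), enc x ∈ P →
      enc (fun e => x (actE σ e)) ∈ P := by
    intro σ x h
    convert hP.2 _ h σ.symm using 1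
    ext e
    simp only [mem_enc, mem_image]
    constructor
    · rintro ⟨he, hx⟩
      refine ⟨e.map σ.toEmbedding, ⟨by simpa using he, hx⟩, ?_⟩
      ext a
      simp only [mem_image, mem_map, Equiv.coe_toEmbedding]
      exact ⟨fun ⟨b, ⟨c, hc, h1⟩, h2⟩ => by subst h1; simp at h2; exact h2 ▸ hc,
        fun ha => ⟨σ a, ⟨a, ha, rfl⟩, by simp⟩⟩
    · rintro ⟨a, ⟨ha, hx⟩, rfl⟩
      refine ⟨by rw [card_image_of_injective _ σ.symm.injective, ha], ?_⟩
      convert hx using 2
      exact Subtype.ext (by ext b; simp [actE, mem_map, mem_image])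
  intro σ x
  unfold indic
  refine if_congr ⟨fun h => ?_, key σ x⟩ rfl rfl
  convert key σ.symm _ h using 2
  funext e
  exact congrArg x (Subtype.ext (by ext a; simp [actE]))

lemma indic_mono {P : Finset (Finset (Finset (Fin n)))} (hP : IsIncreasing n r P) (e : Edge n r)
    (x : Edge n r → Bool) : 0 ≤ diff e (indic P) x := by
  unfold diff indic
  split_ifs with h1 h2 h3 <;> try norm_num
  refine h1 (hP _ h3 _ (enc_mem _) fun a ha => ?_)
  obtain ⟨ha1, ha2⟩ := mem_enc.1 ha
  refine mem_enc.2 ⟨ha1, ?_⟩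
  by_cases h : (⟨a, ha1⟩ : Edge n r) = e
  · rw [h]; simp
  · rw [Function.update_of_ne h] at ha2 ⊢; exact ha2

lemma edgeProb_one {P : Finset (Finset (Finset (Fin n)))} (hP : IsHypergraphProperty n r P)
    (hI : IsIncreasing n r P) (hne : P.Nonempty) : edgeProb n r 1 P = 1 := by
  have hfullH : (univ : Finset (Fin n)).powersetCard r ∈ hypergraphs n r :=
    mem_powerset.2 subset_rfl
  have hfull : (univ : Finset (Fin n)).powersetCard r ∈ P := by
    obtain ⟨H, hH⟩ := hne
    exact hI H hH _ hfullH (mem_powerset.1 (hP.1 hH))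
  unfold edgeProb
  rw [sum_eq_single _ _ (fun h => absurd hfull h)]
  · simp [card_powersetCard]
  · intro H hH hne'
    have hlt := card_lt_card ((mem_powerset.1 (hP.1 hH)).ssubset_of_ne hne')
    rw [card_powersetCard, card_univ, Fintype.card_fin] at hlt
    rw [sub_self, zero_pow (by omega), mul_zero]

lemma edgeProb_zero {P : Finset (Finset (Finset (Fin n)))} (hP : IsHypergraphProperty n r P)
    (hI : IsIncreasing n r P) (hne : P ≠ hypergraphs n r) : edgeProb n r 0 P = 0 := by
  refine sum_eq_zero fun H hH => ?_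
  have hH0 : H.card ≠ 0 := by
    intro h
    rw [card_eq_zero] at h
    subst h
    exact hne (hP.1.antisymm fun H' hH' => hI _ hH H' hH' (empty_subset _))
  rw [zero_pow hH0, zero_mul]

lemma continuous_edgeProb (P : Finset (Finset (Finset (Fin n)))) :
    Continuous fun p => edgeProb n r p P := by
  unfold edgeProb
  fun_prop

lemma monotoneOn_edgeProb {P : Finset (Finset (Finset (Fin n)))}
    (hP : IsHypergraphProperty n r P) (hI : IsIncreasing n r P) :
    MonotoneOn (fun p => edgeProb n r p P) (Set.Icc (0 : ℝ) 1) := by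
  refine monotoneOn_of_hasDerivWithinAt_nonneg (f' := fun p => totalInf p (indic (r := r) P))
    (convex_Icc 0 1) (continuous_edgeProb P).continuousOn ?_ ?_
  · intro p hp
    rw [interior_Icc] at hp
    refine HasDerivAt.hasDerivWithinAt ?_
    simp only [← Ex_indic hP.1]
    exact russo hp.1 hp.2 (indic_mono hI)
  · intro p hp
    rw [interior_Icc] at hp
    exact totalInf_nonneg hp.1.le hp.2.le _

lemma mass_nonempty {α : Type*} [Fintype α] [DecidableEq α] {p : ℝ} (h0 : 0 < p) (h1 : p < 1)
    {f : (α → Bool) → ℝ} (hf : IsBit f) :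
    ∑ S ∈ univ.filter (fun S : Finset α => S.Nonempty), coef p f S ^ 2
      = Ex p f - Ex p f ^ 2 := by
  have h := parseval h0 h1 f
  rw [Ex_congr fun x => hf.sq_eq x] at h
  rw [← sum_filter_add_sum_filter_not univ (fun S : Finset α => S.Nonempty)] at h
  have e : univ.filter (fun S : Finset α => ¬ S.Nonempty) = {∅} := by
    ext S; simp [not_nonempty_iff_eq_empty]
  have e0 : coef p f ∅ = Ex p f := by simp [coef, chi]
  rw [e, sum_singleton, e0] at h
  linarith

/-- The width bound for a large number of vertices. -/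
lemma width_large {ε c κ ρ : ℝ} (hε : 0 < ε) (hε2 : ε < 1 / 2) (hc : 0 < c) (hκ : 0 < κ)
    {P : Finset (Finset (Finset (Fin n)))} (hP : IsHypergraphProperty n r P)
    (hI : IsIncreasing n r P) (hne : P.Nonempty) (hne' : P ≠ hypergraphs n r)
    (hL : 0 < Real.log n)
    (hinf : ∀ p : ℝ, 0 < p → p < 1 → Real.exp (-(κ * Real.log n)) ≤ p * (1 - p) →
      ε / 2 ≤ ∑ S ∈ univ.filter (fun S : Finset (Edge n r) => S.Nonempty),
        coef p (indic P) S ^ 2 →
      c * Real.log n ^ ρ ≤ totalInf p (indic (r := r) P)) :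
    width n r P ε ≤ 4 * Real.exp (-(κ * Real.log n)) + Real.log n ^ (-ρ) / c := by
  set L := Real.log n with hLdef
  set u := Real.exp (-(κ * L)) with hu
  have hu0 : 0 < u := Real.exp_pos _
  have hset : ∀ b, b ≤ 1 → (1 : ℝ) ∈ {p : ℝ | p ∈ Set.Icc 0 1 ∧ b ≤ edgeProb n r p P} :=
    fun b hb => ⟨⟨zero_le_one, le_rfl⟩, by rw [edgeProb_one hP hI hne]; exact hb⟩
  have hbdd : ∀ b, BddBelow {p : ℝ | p ∈ Set.Icc 0 1 ∧ b ≤ edgeProb n r p P} :=
    fun b => ⟨0, fun p hp => hp.1.1⟩
  set a := quantile n r P ε with ha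
  set b := quantile n r P (1 - ε) with hb
  have hb1 : b ≤ 1 := csInf_le (hbdd _) (hset _ (by linarith))
  have hamem : a ∈ {p : ℝ | p ∈ Set.Icc 0 1 ∧ ε ≤ edgeProb n r p P} := by
    refine IsClosed.csInf_mem ?_ ⟨1, hset _ (by linarith)⟩ (hbdd _)
    exact isClosed_Icc.inter (isClosed_le continuous_const (continuous_edgeProb P))
  have hbelow : ∀ p, 0 ≤ p → p < b → edgeProb n r p P < 1 - ε := by
    intro p hp0 hp
    by_contra h
    exact absurd (csInf_le (hbdd (1 - ε)) ⟨⟨hp0, by linarith⟩, not_lt.1 h⟩) (not_le.2 hp)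
  have hwidth : width n r P ε = b - a := rfl
  rw [hwidth]
  have hpos : 0 ≤ L ^ (-ρ) / c := div_nonneg (Real.rpow_nonneg hL.le _) hc.le
  set s := max a (2 * u) with hs
  set t := min b (1 - 2 * u) with ht
  have hsa : a ≤ s := le_max_left _ _
  have hsu : 2 * u ≤ s := le_max_right _ _
  have htb : t ≤ b := min_le_left _ _
  have htu : t ≤ 1 - 2 * u := min_le_right _ _
  have hsplit : b - a ≤ 4 * u + max (t - s) 0 := by
    have h1 := le_max_left (t - s) 0
    have h2 := le_max_right (t - s) 0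
    have := hamem.1.1
    rcases le_total a (2 * u) with h | h <;> rcases le_total b (1 - 2 * u) with h' | h' <;>
      simp only [hs, ht, max_eq_right h, max_eq_left h, min_eq_left h', min_eq_right h'] at h1 ⊢ <;>
      linarith
  refine hsplit.trans (add_le_add le_rfl (max_le ?_ hpos))
  rcases le_or_gt t s with hts | hts
  · linarith
  have hderiv : ∀ p ∈ Set.Ioo s t, c * L ^ ρ ≤ deriv (fun q => edgeProb n r q P) p := by
    intro p hp
    have hp0 : 0 < p := by linarith [hp.1]
    have hp1 : p < 1 := by linarith [hp.2]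
    have hd : HasDerivAt (fun q => edgeProb n r q P) (totalInf p (indic (r := r) P)) p := by
      simp only [← Ex_indic hP.1]
      exact russo hp0 hp1 (indic_mono hI)
    rw [hd.deriv]
    refine hinf p hp0 hp1 ?_ ?_
    · rcases le_total p (1 / 2) with h | h
      · nlinarith [hp.1]
      · nlinarith [hp.2]
    · rw [mass_nonempty hp0 hp1 (indic_isBit P), Ex_indic hP.1]
      have e1 : ε ≤ edgeProb n r p P :=
        hamem.2.trans (monotoneOn_edgeProb hP hI hamem.1 ⟨hp0.le, hp1.le⟩ (by linarith [hp.1]))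
      have e2 := hbelow p hp0.le (by linarith [hp.2])
      nlinarith
  have hmv := (convex_Icc s t).mul_sub_le_image_sub_of_le_deriv
    (continuous_edgeProb P).continuousOn
    (fun p hp => by
      rw [interior_Icc] at hp
      have hp0 : 0 < p := by linarith [hp.1]
      have hp1 : p < 1 := by linarith [hp.2]
      have hd : HasDerivAt (fun q => edgeProb n r q P) (totalInf p (indic (r := r) P)) p := by
        simp only [← Ex_indic hP.1]
        exact russo hp0 hp1 (indic_mono hI)
      exact hd.differentiableAt.differentiableWithinAt)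
    (fun p hp => by rw [interior_Icc] at hp; exact hderiv p hp)
    s ⟨le_rfl, hts.le⟩ t ⟨hts.le, le_rfl⟩ hts.le
  have hrange : edgeProb n r t P - edgeProb n r s P ≤ 1 := by
    have hmono := monotoneOn_edgeProb hP hI
    have hs01 : s ∈ Set.Icc (0 : ℝ) 1 := ⟨by linarith, by linarith⟩
    have ht01 : t ∈ Set.Icc (0 : ℝ) 1 := ⟨by linarith, by linarith⟩
    have h1 := hmono ht01 ⟨zero_le_one, le_rfl⟩ ht01.2
    have h2 := hmono ⟨le_rfl, zero_le_one⟩ hs01 hs01.1
    simp only [edgeProb_one hP hI hne] at h1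
    simp only [edgeProb_zero hP hI hne'] at h2
    linarith
  rw [Real.rpow_neg hL.le, inv_eq_one_div, div_div,
    le_div_iff₀ (mul_pos (Real.rpow_pos_of_pos hL ρ) hc)]
  nlinarith

/-- The threshold width bound for all uniformities. -/
theorem width_bound (r : ℕ) (hr : 2 ≤ r) (ε : ℝ) (hε : 0 < ε) (hε2 : ε < 1 / 2) :
    ∃ C : ℝ, ∀ n : ℕ, r ≤ n → ∀ P : Finset (Finset (Finset (Fin n))),
      IsHypergraphProperty n r P → IsIncreasing n r P → P.Nonempty → P ≠ hypergraphs n r →
      width n r P ε ≤ C * Real.log n ^ (-((r : ℝ) / ((r : ℝ) - 1))) := by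
  obtain ⟨κ, c, n₀, hκ, hc, hinf⟩ :=
    influence_lb r hr (γ := ε / 16) (by positivity) (by linarith)
  set ρ := (r : ℝ) / ((r : ℝ) - 1) with hρ
  have hr' : (2 : ℝ) ≤ r := by exact_mod_cast hr
  have hρ2 : ρ ≤ 2 := by rw [hρ, div_le_iff₀ (by linarith)]; linarith
  have hρ0 : 0 < ρ := by rw [hρ]; exact div_pos (by linarith) (by linarith)
  have hev : ∀ᶠ L : ℝ in Filter.atTop, 1 ≤ L ∧ 4 * L ^ 2 * Real.exp (-(κ * L)) ≤ 1 :=
    (Filter.eventually_ge_atTop (1 : ℝ)).and (eventually_small 2 4 hκ one_pos)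
  obtain ⟨n₁, hn₁⟩ := Filter.eventually_atTop.1
    ((Real.tendsto_log_atTop.comp tendsto_natCast_atTop_atTop).eventually hev)
  set N := max n₀ n₁ with hN
  refine ⟨1 + 1 / c + Real.log (N + 2) ^ ρ, fun n hn P hP hI hne hne' => ?_⟩
  have hn1 : (1 : ℝ) < n := by
    have : (2 : ℝ) ≤ n := by exact_mod_cast hr.trans hn
    linarith
  have hL : 0 < Real.log n := Real.log_pos hn1
  have hLρ : 0 < Real.log n ^ (-ρ) := Real.rpow_pos_of_pos hL _
  have hN0 : 0 ≤ Real.log ((N : ℝ) + 2) ^ ρ :=
    Real.rpow_nonneg (Real.log_nonneg (by linarith [(Nat.cast_nonneg N : (0 : ℝ) ≤ N)])) _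
  rcases le_or_gt N n with hNn | hNn
  · obtain ⟨hL1, hsmall⟩ := hn₁ n ((le_max_right _ _).trans hNn)
    simp only [Function.comp] at hL1 hsmall
    refine (width_large (ρ := ρ) hε hε2 hc hκ hP hI hne hne' hL fun p h0 h1 hp hm => ?_).trans ?_
    · exact hinf n ((le_max_left _ _).trans hNn) p h0 h1 hp _ (indic_isBit P) (indic_isInv hP)
        (by linarith)
    · have h4 : 4 * Real.exp (-(κ * Real.log n)) ≤ 1 * Real.log n ^ (-ρ) := by
        rw [one_mul, Real.rpow_neg hL.le, inv_eq_one_div,
          le_div_iff₀ (Real.rpow_pos_of_pos hL _)]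
        have : Real.log n ^ ρ ≤ Real.log n ^ 2 := by
          rw [← Real.rpow_two]; exact Real.rpow_le_rpow_of_exponent_le hL1 hρ2
        nlinarith [mul_le_mul_of_nonneg_left this (Real.exp_pos (-(κ * Real.log n))).le]
      have e : Real.log n ^ (-ρ) / c = 1 / c * Real.log n ^ (-ρ) := by ring
      have := mul_nonneg hN0 hLρ.le
      linarith
  · have hw : width n r P ε ≤ 1 := by
      unfold width quantile
      have h1 : sInf {p : ℝ | p ∈ Set.Icc 0 1 ∧ 1 - ε ≤ edgeProb n r p P} ≤ 1 :=
        csInf_le ⟨0, fun p hp => hp.1.1⟩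
          ⟨⟨zero_le_one, le_rfl⟩, by rw [edgeProb_one hP hI hne]; linarith⟩
      have h2 : 0 ≤ sInf {p : ℝ | p ∈ Set.Icc 0 1 ∧ ε ≤ edgeProb n r p P} :=
        Real.sInf_nonneg fun p hp => hp.1.1
      linarith
    refine hw.trans ?_
    have hmono : Real.log n ^ ρ ≤ Real.log ((N : ℝ) + 2) ^ ρ := by
      refine Real.rpow_le_rpow hL.le (Real.log_le_log (by linarith) ?_) hρ0.le
      have : (n : ℝ) ≤ N := by exact_mod_cast hNn.le
      linarith
    have hinv : Real.log n ^ ρ * Real.log n ^ (-ρ) = 1 := by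
      rw [← Real.rpow_add hL, add_neg_cancel, Real.rpow_zero]
    have := mul_le_mul_of_nonneg_right hmono hLρ.le
    have : 0 ≤ 1 / c * Real.log n ^ (-ρ) := by positivity
    linarith

end Vale.Agent.P063
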